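import Crest.Agent.N218.C.Defs

/-! Row 218, block (C): the output with the universal monotonicity clause. -/

set_option autoImplicit false
open scoped Topology
open Set Crest.GeometryTopology.CotangentSpheres

namespace Crest.Agent.N218.C

/-- `γ` decreases under every move of `y` that decreases `G0` -/
def Uni {Z : Type} (G0 : V × Y → ℝ) (ξ : X × Z → X) (γ : X × Fb Z → ℝ) : Prop :=
  ∀ x z y y', ‖x‖ = 1 → (∀ q ∈ Us, (nn q).2 = ξ (x, z) → G0 (q, y') ≤ G0 (q, y)) →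
    γ (x, WithLp.toLp 2 (y', z)) ≤ γ (x, WithLp.toLp 2 (y, z))

/-- the end of the chain -/
def TOE2 : Prop := ∀ ι ρ r w R G0, In ι ρ r w R G0 →
  Cls G0 {p | ρ ((nn p.1).2, p.2) < w} (Lc (range (zeroSection 11))) →
  ∃ (M : ℕ) (C : ℝ) (B : Eu M →L[ℝ] Eu M) (ξ : _) (γ : _) (gr : _) (zz : _),
    Dyn ρ r w C B ξ γ gr zz ∧ Uni G0 ξ γ ∧ ∀ x p, ‖x‖ = 1 → |γ (x, p)| ≤ C

/-- **block (C)** -/
def CM2 : Prop := ∀ ι ρ r w R G0 (F : ℝ → Sph 9 × Sph 11 → Amb 11), In ι ρ r w R G0 → Iso F →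
  F 0 = zeroSection 11 → range (F 1) = range ι →
  ∃ (M : ℕ) (C : ℝ) (B : Eu M →L[ℝ] Eu M) (ξ : _) (γ : _) (gr : _) (zz : _),
    Dyn ρ r w C B ξ γ gr zz ∧ Uni G0 ξ γ ∧ ∀ x p, ‖x‖ = 1 → |γ (x, p)| ≤ C

theorem cls_zero (h1 : CONE) (h2 : STP) (h3 : BASE) (h4 : NEXT) {G0 : V × Y → ℝ}
    {D0 : Set (V × Y)} {F : ℝ → Sph 9 × Sph 11 → Amb 11} (hF : Iso F)
    (hg : Gen G0 D0 Us (Lc (range (F 1)))) : Cls G0 D0 (Lc (range (F 0))) := by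
  obtain ⟨a, p, h, hc⟩ := h1 F hF
  have hm : ∀ s, ∀ a ∈ range (F s), InCotangent 11 a := by
    rintro s _ ⟨l, rfl⟩; exact (hF.2 s).mem l
  have lc : IsLocallyConstant fun s => Cls G0 D0 (Lc (range (F s))) := by
    refine (IsLocallyConstant.iff_eventually_eq _).2 fun s₀ => ?_
    have k := h2 _ a p h hc s₀
    have t1 : Filter.Tendsto (fun s : ℝ => (s, s₀)) (𝓝 s₀) (𝓝 (s₀, s₀)) :=
      (continuous_id.prodMk continuous_const).tendsto s₀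
    have t2 : Filter.Tendsto (fun s : ℝ => (s₀, s)) (𝓝 s₀) (𝓝 (s₀, s₀)) :=
      (continuous_const.prodMk continuous_id).tendsto s₀
    filter_upwards [t1.eventually k, t2.eventually k] with s u v
    exact propext ⟨h4 _ _ _ _ (hm _) u, h4 _ _ _ _ (hm _) v⟩
  rw [lc.apply_eq_of_preconnectedSpace 0 1]
  exact h3 _ _ _ (hm 1) hg

theorem cm2 (h1 : CONE) (h2 : STP) (h3 : BASE) (h4 : NEXT) (h5 : TOE2) : CM2 :=
  fun ι ρ r w R G0 _ hI hF h0 h1' =>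
    h5 ι ρ r w R G0 hI (h0 ▸ cls_zero h1 h2 h3 h4 hF (h1' ▸ hI.gen))

theorem CM2.cm (h : CM2) : CM := fun ι ρ r w R G0 F a b c d =>
  let ⟨M, C, B, ξ, γ, gr, zz, k, _⟩ := h ι ρ r w R G0 F a b c d
  ⟨M, C, B, ξ, γ, gr, zz, k⟩

end Crest.Agent.N218.C
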