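import Mathlib

/-!
# Row 218 (helper86): generating families, persistence step, cone step, rigid end
-/

set_option autoImplicit false
open Set Filter Topology ContinuousLinearMap
open scoped ContDiff

noncomputable section

namespace Crest.Agent.N218.C

variable {V E : Type*} [NormedAddCommGroup V] [NormedSpace ℝ V] [NormedAddCommGroup E]
  [NormedSpace ℝ E]

/-- fibre critical points -/
def Cr (G : V × E → ℝ) (x : V × E) : Prop := ∀ ζ : E, fderiv ℝ G x (0, ζ) = 0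

/-- the base derivative -/
def dq (G : V × E → ℝ) (x : V × E) : V →L[ℝ] ℝ := (fderiv ℝ G x).comp (inl ℝ V E)

theorem dq_apply (G : V × E → ℝ) (x : V × E) (w : V) : dq G x w = fderiv ℝ G x (w, 0) := rfl

/-- `G` generates `L` over `U` on the domain `D` -/
structure Gen (G : V × E → ℝ) (D : Set (V × E)) (U : Set V) (L : Set (V × (V →L[ℝ] ℝ))) :
    Prop where
  sm : ContDiff ℝ ∞ G
  op : IsOpen D
  mem : ∀ x ∈ D, x.1 ∈ U → Cr G x → (x.1, dq G x) ∈ L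
  ex : ∀ z ∈ L, z.1 ∈ U → ∃ ξ, (z.1, ξ) ∈ D ∧ Cr G (z.1, ξ) ∧ dq G (z.1, ξ) = z.2
  un : ∀ q ∈ U, ∀ ξ ξ', (q, ξ) ∈ D → (q, ξ') ∈ D → Cr G (q, ξ) → Cr G (q, ξ') →
    dq G (q, ξ) = dq G (q, ξ') → ξ = ξ'
  sub : ∀ x ∈ D, x.1 ∈ U → Cr G x → ∀ ζ : E, fderiv ℝ (fderiv ℝ G) x (0, ζ) = 0 → ζ = 0

theorem Gen.mono {G : V × E → ℝ} {D : Set (V × E)} {U U' : Set V} {L : Set (V × (V →L[ℝ] ℝ))}
    (h : Gen G D U L) (hU : U' ⊆ U) : Gen G D U' L :=
  ⟨h.sm, h.op, fun x a b => h.mem x a (hU b), fun z a b => h.ex z a (hU b),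
    fun q a => h.un q (hU a), fun x a b => h.sub x a (hU b)⟩

theorem fd_split (A : V × E →L[ℝ] ℝ) (k : V × E) : A k = A (k.1, 0) + A (0, k.2) := by
  rw [← map_add]; simp

section
variable {X : Type*} [NormedAddCommGroup X] [NormedSpace ℝ X]

theorem has_d2 {G : X → ℝ} (hG : ContDiff ℝ ∞ G) (x : X) :
    HasStrictFDerivAt (fderiv ℝ G) (fderiv ℝ (fderiv ℝ G) x) x :=
  ((hG.fderiv_right (m := 1) (by norm_cast)).contDiffAt).hasStrictFDerivAt one_ne_zero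

theorem has_d2a {G : X → ℝ} (hG : ContDiff ℝ ∞ G) (x k : X) :
    HasFDerivAt (fun y => fderiv ℝ G y k) ((fderiv ℝ (fderiv ℝ G) x).flip k) x :=
  (ContinuousLinearMap.apply ℝ ℝ k).hasFDerivAt.comp x (has_d2 hG x).hasFDerivAt

theorem d2_symm {G : X → ℝ} (hG : ContDiff ℝ ∞ G) (x h k : X) :
    fderiv ℝ (fderiv ℝ G) x h k = fderiv ℝ (fderiv ℝ G) x k h :=
  (hG.contDiffAt.isSymmSndFDerivAt (by simp; norm_cast)).eq h k

theorem lip_d {W : X → ℝ} (hW : ContDiff ℝ ∞ W) {c : ℝ} (hc : 0 ≤ c)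
    (h : ∀ z a b, ‖fderiv ℝ (fderiv ℝ W) z a b‖ ≤ c * ‖a‖ * ‖b‖) (a b k : X) :
    ‖(fderiv ℝ W a - fderiv ℝ W b) k‖ ≤ c * ‖a - b‖ * ‖k‖ :=
  le_of_opNorm_le _ (convex_univ.norm_image_sub_le_of_norm_fderiv_le
    (fun z _ => (has_d2 hW z).hasFDerivAt.differentiableAt)
    (fun z _ => opNorm_le_bound₂ _ hc (h z)) (mem_univ _) (mem_univ _)) k

theorem d1_le {W : X → ℝ} {c : ℝ} (h : ∀ z, ‖fderiv ℝ W z‖ ≤ c) (z a : X) :
    ‖fderiv ℝ W z a‖ ≤ c * ‖a‖ := le_of_opNorm_le _ (h z) a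

theorem d2_le {W : X → ℝ} {c : ℝ} (h : ∀ z, ‖fderiv ℝ (fderiv ℝ W) z‖ ≤ c) (z a b : X) :
    ‖fderiv ℝ (fderiv ℝ W) z a b‖ ≤ c * ‖a‖ * ‖b‖ := le_of_opNorm₂_le_of_le _ (h z) le_rfl le_rfl

omit [NormedSpace ℝ X] in
theorem half_zero {a : X} (h : ‖a‖ ≤ 1 / 2 * ‖a‖) : a = 0 :=
  norm_eq_zero.1 (by linarith [norm_nonneg a])
end

/-- a function that vanishes on the fibre critical set has zero derivative along the kernel -/
theorem Gen.ker [FiniteDimensional ℝ V] [FiniteDimensional ℝ E] {G : V × E → ℝ}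
    {D : Set (V × E)} {U : Set V} {L : Set (V × (V →L[ℝ] ℝ))} (h : Gen G D U L) {x : V × E}
    (hx : x ∈ D) (hU : U ∈ 𝓝 x.1) (hc : Cr G x) {k : V × E}
    (hk : ∀ η, fderiv ℝ (fderiv ℝ G) x k (0, η) = 0) {φ : V × E → ℝ} {φ' : V × E →L[ℝ] ℝ}
    (hφ : HasFDerivAt φ φ' x) (h0 : ∀ y ∈ D, y.1 ∈ U → Cr G y → φ y = 0) : φ' k = 0 := by
  have := FiniteDimensional.complete ℝ (V × E)
  let J : (V × E →L[ℝ] ℝ) →L[ℝ] (E →L[ℝ] ℝ) := (compL ℝ E (V × E) ℝ).flip (inr ℝ V E)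
  have hf : HasStrictFDerivAt (fun y => J (fderiv ℝ G y)) (J.comp (fderiv ℝ (fderiv ℝ G) x)) x :=
    J.hasStrictFDerivAt.comp x (has_d2 h.sm x)
  have hs : (J.comp (fderiv ℝ (fderiv ℝ G) x)).range = ⊤ := by
    let B : E →ₗ[ℝ] (V × E) →ₗ[ℝ] ℝ := (coeLM ℝ).comp
      (((fderiv ℝ (fderiv ℝ G) x).comp (inr ℝ V E) : E →L[ℝ] (V × E →L[ℝ] ℝ)) :
        E →ₗ[ℝ] (V × E →L[ℝ] ℝ))
    have hB : Function.Injective B := (injective_iff_map_eq_zero B).2 fun ζ e =>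
      h.sub x hx (mem_of_mem_nhds hU) hc ζ (ContinuousLinearMap.ext fun k => LinearMap.congr_fun e k)
    refine LinearMap.range_eq_top.2 fun l => ?_
    obtain ⟨a, ha⟩ := LinearMap.flip_surjective_iff₁.2 hB l
    refine ⟨a, ContinuousLinearMap.ext fun ζ => ?_⟩
    exact (d2_symm h.sm x a (0, ζ)).trans (LinearMap.congr_fun ha ζ)
  have h1 := hf.to_implicitFunction hs
  have h2 := hf.implicitFunction_apply_image hs
  have h3 := (hf.map_implicitFunction_eq hs).curry_nhds.self_of_nhds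
  set c := hf.implicitFunction _ _ hs (J (fderiv ℝ G x)) with hcd
  have ct : Tendsto c (𝓝 0) (𝓝 x) := by
    have := h1.continuousAt.tendsto
    rwa [h2] at this
  have e : (fun t => φ (c t)) =ᶠ[𝓝 0] fun _ => 0 := by
    filter_upwards [h3, ct (h.op.mem_nhds hx), (continuous_fst.tendsto x).comp ct hU] with t a b d
    refine h0 _ b d fun ζ => ?_
    exact (ContinuousLinearMap.ext_iff.1 a ζ).trans (hc ζ)
  have h4 : HasFDerivAt φ φ' (c 0) := h2.symm ▸ hφ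
  have h5 := (h4.comp 0 h1.hasFDerivAt).unique
    ((hasFDerivAt_const (0 : ℝ) 0).congr_of_eventuallyEq e)
  exact ContinuousLinearMap.ext_iff.1 h5 ⟨k, ContinuousLinearMap.ext hk⟩

/-- **the rigid end**: a unique critical point with injective fibre Hessian -/
theorem Gen.fin [FiniteDimensional ℝ V] [FiniteDimensional ℝ E] {G : V × E → ℝ}
    {D : Set (V × E)} {U : Set V} {L : Set (V × (V →L[ℝ] ℝ))} (h : Gen G D U L)
    (hL : ∀ z ∈ L, z.2 = 0) {q : V} (hU : U ∈ 𝓝 q) (hq : (q, 0) ∈ L) :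
    ∃ ξ, (q, ξ) ∈ D ∧ Cr G (q, ξ) ∧ (∀ ξ', (q, ξ') ∈ D → Cr G (q, ξ') → ξ' = ξ) ∧
      ∀ ζ, (∀ η, fderiv ℝ (fderiv ℝ G) (q, ξ) (0, ζ) (0, η) = 0) → ζ = 0 := by
  have hq' := mem_of_mem_nhds hU
  obtain ⟨ξ, a, b, c⟩ := h.ex _ hq hq'
  refine ⟨ξ, a, b, fun ξ' a' b' => h.un q hq' _ _ a' a b' b ?_, fun ζ e => ?_⟩
  · exact (hL _ (h.mem _ a' hq' b')).trans c.symm
  refine h.sub _ a hq' b ζ (ContinuousLinearMap.ext fun k => ?_)
  rw [fd_split, e]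
  have := h.ker a hU b e (has_d2a h.sm (q, ξ) (k.1, 0)) fun y i j l =>
    ContinuousLinearMap.ext_iff.1 (hL _ (h.mem y i j l)) k.1
  simpa using this

/-- **the cone step** -/
theorem Gen.cone [FiniteDimensional ℝ V] [FiniteDimensional ℝ E] {G : V × E → ℝ}
    {D : Set (V × E)} {U U' : Set V} {L : Set (V × (V →L[ℝ] ℝ))} (h : Gen G D U' L)
    {n : V → V} (hn : ContDiff ℝ ∞ n) (hU : ∀ q ∈ U, U' ∈ 𝓝 (n q)) {ι : Type*}
    (R : ι → V →L[ℝ] V) (hL : ∀ z ∈ L, ∀ i, z.2 (R i z.1) = 0)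
    (inj : ∀ q ∈ U, ∀ P : V →L[ℝ] ℝ, (∀ i, P (R i (n q)) = 0) → P.comp (fderiv ℝ n q) = 0 → P = 0)
    (h1 : ∀ q ∈ U, ∀ P, (n q, P) ∈ L → (q, P.comp (fderiv ℝ n q)) ∈ L)
    (h2 : ∀ q ∈ U, ∀ P', (q, P') ∈ L → ∃ P, (n q, P) ∈ L ∧ P.comp (fderiv ℝ n q) = P') :
    Gen (fun x => G (n x.1, x.2)) {x | (n x.1, x.2) ∈ D} U L := by
  have d1 : ∀ x k : V × E, fderiv ℝ (fun x : V × E => G (n x.1, x.2)) x k =
      fderiv ℝ G (n x.1, x.2) (fderiv ℝ n x.1 k.1, k.2) := fun x k => by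
    have := (h.sm.differentiable (by simp) (n x.1, x.2)).hasFDerivAt.comp x
      (((hn.differentiable (by simp) x.1).hasFDerivAt.comp x hasFDerivAt_fst).prodMk hasFDerivAt_snd)
    exact ContinuousLinearMap.ext_iff.1 this.fderiv k
  have cr : ∀ x : V × E, Cr (fun x : V × E => G (n x.1, x.2)) x ↔ Cr G (n x.1, x.2) := fun x => by
    simp only [Cr, d1, map_zero]
  have dd : ∀ x : V × E, dq (fun x : V × E => G (n x.1, x.2)) x =
      (dq G (n x.1, x.2)).comp (fderiv ℝ n x.1) := fun x =>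
    ContinuousLinearMap.ext fun w => d1 x (w, 0)
  have sm : ContDiff ℝ ∞ fun x : V × E => G (n x.1, x.2) :=
    h.sm.comp ((hn.comp contDiff_fst).prodMk contDiff_snd)
  have u := fun q a => mem_of_mem_nhds (hU q a)
  refine ⟨sm, h.op.preimage ((hn.continuous.comp continuous_fst).prodMk continuous_snd),
    fun x a b c => ?_, fun z a b => ?_, fun q a ξ ξ' b b' c c' e => ?_, fun x a b c ζ e => ?_⟩
  · rw [dd]; exact h1 _ b _ (h.mem _ a (u _ b) ((cr x).1 c))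
  · obtain ⟨P, i, j⟩ := h2 _ b _ a
    obtain ⟨ξ, k, l, m⟩ := h.ex _ i (u _ b)
    exact ⟨ξ, k, (cr _).2 l, by rw [dd, ← j]; exact congrArg (comp · _) m⟩
  · have i := (cr _).1 c
    have i' := (cr _).1 c'
    refine h.un _ (u _ a) _ _ b b' i i' (sub_eq_zero.1 (inj q a _ (fun j => ?_) ?_))
    · exact sub_eq_zero.2 ((hL _ (h.mem _ b (u _ a) i) j).trans (hL _ (h.mem _ b' (u _ a) i') j).symm)
    · rw [dd, dd] at e
      rw [sub_comp]; exact sub_eq_zero.2 e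
  have c' := (cr x).1 c
  have d2 : ∀ k : V × E, fderiv ℝ (fderiv ℝ G) (n x.1, x.2) (0, ζ) (fderiv ℝ n x.1 k.1, k.2) = 0 :=
    fun k => by
    have i := (has_d2a sm (x.1, x.2) k).comp x.2 (hasFDerivAt_prodMk_right x.1 x.2)
    have j := (has_d2a h.sm (n x.1, x.2) (fderiv ℝ n x.1 k.1, k.2)).comp x.2
      (hasFDerivAt_prodMk_right (n x.1) x.2)
    have l := ContinuousLinearMap.ext_iff.1 (j.unique (i.congr_of_eventuallyEq
      (Eventually.of_forall fun ξ => (d1 (x.1, ξ) k).symm))) ζ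
    exact l.trans (ContinuousLinearMap.ext_iff.1 e k)
  have e0 : ∀ η, fderiv ℝ (fderiv ℝ G) (n x.1, x.2) (0, ζ) (0, η) = 0 := fun η => by
    simpa using d2 (0, η)
  have e1 := inj _ b ((fderiv ℝ (fderiv ℝ G) (n x.1, x.2) (0, ζ)).comp (inl ℝ V E)) (fun i => by
    have := h.ker a (hU _ b) c' e0 ((has_d2 h.sm (n x.1, x.2)).hasFDerivAt.clm_apply
      ((inl ℝ V E).comp ((R i).comp (fst ℝ V E))).hasFDerivAt) fun y j k l => hL _ (h.mem y j k l) i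
    simpa [← Prod.zero_eq_mk] using this) (ContinuousLinearMap.ext fun w => d2 (w, 0))
  refine h.sub _ a (u _ b) c' ζ (ContinuousLinearMap.ext fun k => ?_)
  rw [fd_split, e0, add_zero]
  exact ContinuousLinearMap.ext_iff.1 e1 k.1

/-- the relation between two points defined by `W` -/
def Rl (W : V × (V →L[ℝ] ℝ) → ℝ) (z z' : V × (V →L[ℝ] ℝ)) : Prop :=
  ∀ w π, fderiv ℝ W (z'.1, z.2) (w, π) = (z'.2 - z.2) w + π (z.1 - z'.1)

/-- the new generating family -/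
def stp (G : V × E → ℝ) (χ : V → V) (W : V × (V →L[ℝ] ℝ) → ℝ)
    (x : V × E × V × (V →L[ℝ] ℝ)) : ℝ :=
  G (x.1 - χ x.2.2.1, x.2.1) + x.2.2.2 x.2.2.1 + W (x.1, x.2.2.2)

theorem stp_smooth {G : V × E → ℝ} {χ : V → V} {W : V × (V →L[ℝ] ℝ) → ℝ} (hG : ContDiff ℝ ∞ G)
    (hχ : ContDiff ℝ ∞ χ) (hW : ContDiff ℝ ∞ W) : ContDiff ℝ ∞ (stp G χ W) :=
  ((hG.comp ((contDiff_fst.sub (hχ.comp contDiff_snd.snd.fst)).prodMk contDiff_snd.fst)).add
    (contDiff_snd.snd.snd.clm_apply contDiff_snd.snd.fst)).add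
    (hW.comp (contDiff_fst.prodMk contDiff_snd.snd.snd))

theorem stp_d {G : V × E → ℝ} {χ : V → V} {W : V × (V →L[ℝ] ℝ) → ℝ} (hG : ContDiff ℝ ∞ G)
    (hχ : ContDiff ℝ ∞ χ) (hW : ContDiff ℝ ∞ W) (x k : V × E × V × (V →L[ℝ] ℝ)) :
    fderiv ℝ (stp G χ W) x k =
      fderiv ℝ G (x.1 - χ x.2.2.1, x.2.1) (k.1 - fderiv ℝ χ x.2.2.1 k.2.2.1, k.2.1) +
        (k.2.2.2 x.2.2.1 + x.2.2.2 k.2.2.1) + fderiv ℝ W (x.1, x.2.2.2) (k.1, k.2.2.2) := by
  have t : HasFDerivAt (fun x : V × E × V × (V →L[ℝ] ℝ) => (x.1 - χ x.2.2.1, x.2.1)) _ x :=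
    (hasFDerivAt_fst.sub ((hχ.differentiable (by simp) x.2.2.1).hasFDerivAt.comp x
      (hasFDerivAt_snd (𝕜 := ℝ) (p := x)).snd.fst)).prodMk hasFDerivAt_snd.fst
  have a := (hG.differentiable (by simp) (x.1 - χ x.2.2.1, x.2.1)).hasFDerivAt.comp x t
  have b := (hasFDerivAt_snd (𝕜 := ℝ) (p := x)).snd.snd.clm_apply
    (hasFDerivAt_snd (𝕜 := ℝ) (p := x)).snd.fst
  have t' : HasFDerivAt (fun x : V × E × V × (V →L[ℝ] ℝ) => (x.1, x.2.2.2)) _ x :=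
    hasFDerivAt_fst.prodMk (hasFDerivAt_snd (𝕜 := ℝ) (p := x)).snd.snd
  have c := (hW.differentiable (by simp) (x.1, x.2.2.2)).hasFDerivAt.comp x t'
  have := ContinuousLinearMap.ext_iff.1 ((a.add b).add c).fderiv k
  exact this.trans (by simp [add_comm])

/-- **the persistence step** -/
theorem Gen.step {G : V × E → ℝ} {D : Set (V × E)} {U U' : Set V}
    {L L' : Set (V × (V →L[ℝ] ℝ))} (h : Gen G D U L) {χ : V → V} {W : V × (V →L[ℝ] ℝ) → ℝ}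
    (hχ : ContDiff ℝ ∞ χ) (hW : ContDiff ℝ ∞ W) {ε δ : ℝ} (e0 : 0 ≤ ε) (hε : ε < δ)
    (χ1 : ∀ v, ‖v‖ < δ → χ v = v) (W1 : ∀ z a, ‖fderiv ℝ W z a‖ ≤ ε * ‖a‖)
    (W2 : ∀ z a b, ‖fderiv ℝ (fderiv ℝ W) z a b‖ ≤ 1 / 2 * ‖a‖ * ‖b‖) (hU : ∀ Q ∈ U', ∀ v, ‖v‖ ≤ ε → Q - v ∈ U)
    (h1 : ∀ z ∈ L, z.1 ∈ U → ∃ z' ∈ L', Rl W z z') (h2 : ∀ z' ∈ L', z'.1 ∈ U' → ∃ z ∈ L, Rl W z z') :
    Gen (stp G χ W) {x | (x.1 - χ x.2.2.1, x.2.1) ∈ D} U' L' := by
  have d1 : ∀ x k : V × E × V × (V →L[ℝ] ℝ), ‖x.2.2.1‖ < δ → fderiv ℝ (stp G χ W) x k =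
      fderiv ℝ G (x.1 - x.2.2.1, x.2.1) (k.1 - k.2.2.1, k.2.1) +
        (k.2.2.2 x.2.2.1 + x.2.2.2 k.2.2.1) + fderiv ℝ W (x.1, x.2.2.2) (k.1, k.2.2.2) :=
    fun x k a => by
    have : χ =ᶠ[𝓝 x.2.2.1] id := by
      filter_upwards [(isOpen_lt continuous_norm continuous_const).mem_nhds a] with v b using χ1 v b
    rw [stp_d h.sm hχ hW, this.fderiv_eq, fderiv_id, χ1 _ a]; rfl
  have sv : ∀ (z : V × (V →L[ℝ] ℝ)) (v : V), (∀ π, π v + fderiv ℝ W z (0, π) = 0) → ‖v‖ ≤ ε :=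
    fun z v a => NormedSpace.norm_le_dual_bound ℝ v e0 fun π => by
      rw [eq_neg_of_add_eq_zero_left (a π), norm_neg]
      exact (W1 z _).trans (by simp)
  have cr : ∀ x, Cr (stp G χ W) x → ‖x.2.2.1‖ ≤ ε ∧ χ x.2.2.1 = x.2.2.1 ∧
      Cr G (x.1 - x.2.2.1, x.2.1) ∧ dq G (x.1 - x.2.2.1, x.2.1) = x.2.2.2 ∧
      (∀ π, π x.2.2.1 + fderiv ℝ W (x.1, x.2.2.2) (0, π) = 0) ∧
      ∀ w, dq (stp G χ W) x w = x.2.2.2 w + fderiv ℝ W (x.1, x.2.2.2) (w, 0) := fun x c => by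
    have a : ∀ π, π x.2.2.1 + fderiv ℝ W (x.1, x.2.2.2) (0, π) = 0 := fun π => by
      simpa [stp_d h.sm hχ hW, ← Prod.zero_eq_mk] using c (0, 0, π)
    have b := sv _ _ a
    have b' := b.trans_lt hε
    have i : dq G (x.1 - x.2.2.1, x.2.1) = x.2.2.2 := ContinuousLinearMap.ext fun w => by
      have := c (0, -w, 0)
      simp only [d1 _ _ b', zero_sub, neg_neg, map_neg, ← Prod.zero_eq_mk, map_zero, zero_apply] at this
      rw [dq_apply]; linarith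
    refine ⟨b, χ1 _ b', fun ζ => ?_, i, a, fun w => ?_⟩
    · simpa [d1 _ _ b', ← Prod.zero_eq_mk] using c (ζ, 0, 0)
    · rw [dq_apply, d1 _ _ b', ← ContinuousLinearMap.ext_iff.1 i w, dq_apply]; simp
  refine ⟨stp_smooth h.sm hχ hW, h.op.preimage ((continuous_fst.sub
    (hχ.continuous.comp continuous_snd.snd.fst)).prodMk continuous_snd.fst),
    fun x a b c => ?_, fun z a b => ?_, fun q a ξ ξ' b b' c c' e => ?_, fun x a b c ζ e => ?_⟩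
  · obtain ⟨c1, c2, c3, c4, c5, c6⟩ := cr x c
    rw [mem_ofPred_eq, c2] at a
    obtain ⟨z', i, j⟩ := h1 _ (h.mem _ a (hU _ b _ c1) c3) (hU _ b _ c1)
    simp only [Rl, c4] at j
    have k : x.1 - z'.1 = 0 := half_zero (NormedSpace.norm_le_dual_bound ℝ _ (by positivity)
      fun π => by
        have l : π (x.1 - z'.1) = (fderiv ℝ W (z'.1, x.2.2.2) - fderiv ℝ W (x.1, x.2.2.2)) (0, π) := by
          have := c5 π
          rw [sub_apply, j]; simp only [map_zero, map_sub]; linarith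
        rw [l]
        refine (lip_d hW (by norm_num) W2 _ _ _).trans (le_of_eq ?_)
        simp [norm_sub_rev])
    have k' := sub_eq_zero.1 k
    have : dq (stp G χ W) x = z'.2 := ContinuousLinearMap.ext fun w => by
      rw [c6, k', j]; simp
    rw [this, k']; exact i
  · obtain ⟨y, i, j⟩ := h2 z a b
    have s : ‖z.1 - y.1‖ ≤ ε := sv (z.1, y.2) _ fun π => by rw [j]; simp
    have u : y.1 ∈ U := by simpa using hU _ b _ s
    obtain ⟨ξ, k, l, m⟩ := h.ex y i u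
    have s' := s.trans_lt hε
    have t : ∀ k : V × E × V × (V →L[ℝ] ℝ),
        fderiv ℝ (stp G χ W) (z.1, ξ, z.1 - y.1, y.2) k = z.2 k.1 := fun k => by
      rw [d1 _ _ s', j, fd_split, sub_sub_cancel, l, ← dq_apply, m]
      simp only [map_sub, sub_apply]; ring
    refine ⟨(ξ, z.1 - y.1, y.2), ?_, fun ζ => by rw [t, map_zero],
      ContinuousLinearMap.ext fun w => t _⟩
    rw [mem_ofPred_eq, χ1 _ s']; simpa using k
  · obtain ⟨c1, c2, c3, c4, c5, c6⟩ := cr _ c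
    obtain ⟨-, c2', c3', c4', c5', c6'⟩ := cr _ c'
    rw [mem_ofPred_eq, c2] at b
    rw [mem_ofPred_eq, c2'] at b'
    have k : ξ.2.2 - ξ'.2.2 = 0 := half_zero (opNorm_le_bound _ (by positivity) fun w => by
      have l : (ξ.2.2 - ξ'.2.2) w = (fderiv ℝ W (q, ξ'.2.2) - fderiv ℝ W (q, ξ.2.2)) (w, 0) := by
        have := c6 w
        rw [e, c6'] at this
        simp only [sub_apply]; linarith
      rw [l]
      refine (lip_d hW (by norm_num) W2 _ _ _).trans (le_of_eq ?_)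
      simp [norm_sub_rev])
    have k' := sub_eq_zero.1 k
    have v : ξ.2.1 = ξ'.2.1 := (SeparatingDual.eq_iff_forall_dual_eq (R := ℝ)).2 fun π => by
      have := c5 π
      have := c5' π
      simp only [k'] at *; linarith
    simp only [v] at b c1 c3 c4
    exact Prod.ext (h.un _ (hU _ a _ c1) _ _ b b' c3 c3' (c4.trans (k'.trans c4'.symm)))
      (Prod.ext v k')
  obtain ⟨c1, c2, c3, -⟩ := cr x c
  rw [mem_ofPred_eq, c2] at a
  have d2 : ∀ k : V × E × V × (V →L[ℝ] ℝ),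
      fderiv ℝ (fderiv ℝ G) (x.1 - x.2.2.1, x.2.1) (-ζ.2.1, ζ.1) (k.1 - k.2.2.1, k.2.1) +
        (k.2.2.2 ζ.2.1 + ζ.2.2 k.2.2.1) +
        fderiv ℝ (fderiv ℝ W) (x.1, x.2.2.2) (0, ζ.2.2) (k.1, k.2.2.2) = 0 := fun k => by
    have t : HasFDerivAt (fun x : V × E × V × (V →L[ℝ] ℝ) => (x.1 - x.2.2.1, x.2.1)) _ x :=
      (hasFDerivAt_fst.sub (hasFDerivAt_snd (𝕜 := ℝ) (p := x)).snd.fst).prodMk hasFDerivAt_snd.fst
    have i := (has_d2a h.sm (x.1 - x.2.2.1, x.2.1) (k.1 - k.2.2.1, k.2.1)).comp x t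
    have j := (k.2.2.2.hasFDerivAt.comp x (hasFDerivAt_snd (𝕜 := ℝ) (p := x)).snd.fst).add
      ((ContinuousLinearMap.apply ℝ ℝ k.2.2.1).hasFDerivAt.comp x
        (hasFDerivAt_snd (𝕜 := ℝ) (p := x)).snd.snd)
    have t' : HasFDerivAt (fun x : V × E × V × (V →L[ℝ] ℝ) => (x.1, x.2.2.2)) _ x :=
      hasFDerivAt_fst.prodMk (hasFDerivAt_snd (𝕜 := ℝ) (p := x)).snd.snd
    have l := (has_d2a hW (x.1, x.2.2.2) (k.1, k.2.2.2)).comp x t'
    have m := ((i.add j).add l).unique ((has_d2a (stp_smooth h.sm hχ hW) x k).congr_of_eventuallyEq (by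
      filter_upwards [(isOpen_lt continuous_snd.snd.fst.norm continuous_const).mem_nhds
        (c1.trans_lt hε)] with y hy using (d1 y k hy).symm))
    have := (ContinuousLinearMap.ext_iff.1 m (0, ζ)).trans (ContinuousLinearMap.ext_iff.1 e k)
    simpa using this
  have z3 : ζ.2.2 = 0 := half_zero (opNorm_le_bound _ (by positivity) fun w => by
    have := d2 (w, 0, w, 0)
    simp only [sub_self, ← Prod.zero_eq_mk, map_zero, zero_apply, zero_add] at this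
    rw [eq_neg_of_add_eq_zero_left this, norm_neg]
    exact (W2 _ _ _).trans (by simp))
  have z2 : ζ.2.1 = 0 := (SeparatingDual.eq_iff_forall_dual_eq (R := ℝ)).2 fun π => by
    simpa [z3, ← Prod.zero_eq_mk] using d2 (0, 0, 0, π)
  have z1 : ζ.1 = 0 := h.sub _ a (hU _ b _ c1) c3 _ (ContinuousLinearMap.ext fun k => by
    simpa [z3, z2, ← Prod.zero_eq_mk] using d2 (k.1, k.2, 0, 0))
  exact Prod.ext z1 (Prod.ext z2 z3)

end Crest.Agent.N218.C
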