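import Crest.Prelude.Def_CotangentSpheres
import Crest.Agent.N218.C.Gen

/-! Row 218, block (C): definitions, the leaves as `Prop`s, and the glue. -/

set_option autoImplicit false
open scoped Manifold ContDiff InnerProductSpace Topology
open Set Crest.GeometryTopology.CotangentSpheres

noncomputable section

namespace Crest.Agent.N218.C

abbrev Y := EuclideanSpace ℝ (Fin (9 + 1))
abbrev X := EuclideanSpace ℝ (Fin (11 + 1))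
abbrev V := Y × X
abbrev Vd := V →L[ℝ] ℝ
abbrev Eu (M : ℕ) := EuclideanSpace ℝ (Fin M)

/-- `t ↦ 1 / √t` on `[1/4, 4]`, cut off -/
def ph (t : ℝ) : ℝ := Real.smoothTransition (16 * t - 1) * Real.smoothTransition (5 - t) * (√t)⁻¹

/-- normalisation on the shell `1/2 ≤ ‖a‖ ≤ 2`, cut off -/
def nv {E : Type*} [NormedAddCommGroup E] [InnerProductSpace ℝ E] (a : E) : E := ph (‖a‖ ^ 2) • a

/-- blockwise normalisation -/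
def nn (q : V) : V := (nv q.1, nv q.2)

/-- the open shell -/
def Us : Set V := {q | (1 / 2 < ‖q.1‖ ∧ ‖q.1‖ < 2) ∧ (1 / 2 < ‖q.2‖ ∧ ‖q.2‖ < 2)}

/-- both blocks are nonzero -/
def Nz : Set V := {q | q.1 ≠ 0 ∧ q.2 ≠ 0}

/-- the cone over a subset of the cotangent bundle -/
def Lc (L : Set (Amb 11)) : Set (V × Vd) :=
  {z | ∃ a ∈ L, ∃ s t : ℝ, 0 < s ∧ 0 < t ∧ z.1 = (s • a.1.1, t • a.1.2) ∧
    ∀ w : V, z.2 w = s⁻¹ * ⟪a.2.1, w.1⟫_ℝ + t⁻¹ * ⟪a.2.2, w.2⟫_ℝ}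

/-- the family of retractions delivered by block (A) -/
structure Ret (ρ : X × Y → ℝ) (r : X × Y → Y) (w R : ℝ) : Prop where
  ρc : Continuous ρ
  rs : ContDiff ℝ ∞ r
  w0 : 0 < w
  bl : ∀ x y, ‖x‖ = 1 → ρ (x, y) ≤ w → ‖y‖ < R
  fix : ∀ x y, ‖x‖ = 1 → ρ (x, y) ≤ 0 → r (x, y) = y
  cl : ∀ x y, ‖x‖ = 1 → ρ (x, y) ≤ 0 → y ∈ closure {y' | ρ (x, y') < 0}
  dec : ∀ x y, ‖x‖ = 1 → 0 < ρ (x, y) → ρ (x, y) ≤ w → ρ (x, r (x, y)) < ρ (x, y)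
  half : ∀ x y, ‖x‖ = 1 → ρ (x, r (x, y)) ≤ w / 2

/-- **the input from block (A)** -/
structure In (ι : Sph 9 × Sph 11 → Amb 11) (ρ : X × Y → ℝ) (r : X × Y → Y) (w R : ℝ)
    (G0 : V × Y → ℝ) : Prop where
  ret : Ret ρ r w R
  out : ∀ q y, R ≤ ‖y‖ → G0 (q, y) = 0
  gen : Gen G0 {p | ρ ((nn p.1).2, p.2) < w} Us (Lc (range ι))
  mono : ∀ q ∈ Us, ∀ y, ρ ((nn q).2, y) ≤ w → G0 (q, r ((nn q).2, y)) ≤ G0 (q, y)
  neg : ∀ q ∈ Us, ∀ y, ρ ((nn q).2, y) < w → Cr G0 (q, y) → ρ ((nn q).2, y) < 0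

/-- a smooth isotopy of exact Lagrangian embeddings -/
def Iso (F : ℝ → Sph 9 × Sph 11 → Amb 11) : Prop :=
  ContMDiff (𝓘(ℝ, ℝ).prod ((𝓡 9).prod (𝓡 11))) 𝓘(ℝ, Amb 11) ∞
    (fun p : ℝ × (Sph 9 × Sph 11) => F p.1 p.2) ∧ ∀ s, IsExactLagEmbedding 11 (F s)

/-- the Euclidean cone over an isotopy: base `a`, covector `p`, primitive `h` -/
structure Cn (Ls : ℝ → Set (V × Vd)) (a : ℝ × V → V) (p : ℝ × V → Vd) (h : ℝ × V → ℝ) :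
    Prop where
  sa : ContDiffOn ℝ ∞ a (univ ×ˢ Nz)
  sp : ContDiffOn ℝ ∞ p (univ ×ˢ Nz)
  sh : ContDiffOn ℝ ∞ h (univ ×ˢ Nz)
  nr : ∀ s, ∀ l ∈ Nz, ‖(a (s, l)).1‖ = ‖l.1‖ ∧ ‖(a (s, l)).2‖ = ‖l.2‖
  im : ∀ s, Ls s = (fun l => (a (s, l), p (s, l))) '' Nz
  inj : ∀ s, InjOn (fun l => (a (s, l), p (s, l))) Nz
  imm : ∀ s, ∀ l ∈ Nz, ∀ v, fderiv ℝ (fun l => a (s, l)) l v = 0 →
    fderiv ℝ (fun l => p (s, l)) l v = 0 → v = 0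
  ex : ∀ s, ∀ l ∈ Nz, ∀ v,
    fderiv ℝ (fun l => h (s, l)) l v = p (s, l) (fderiv ℝ (fun l => a (s, l)) l v)

/-- `L` and `L'` are related by a small compactly supported `W` -/
def Near (L L' : Set (V × Vd)) : Prop :=
  ∃ W : V × Vd → ℝ, ContDiff ℝ ∞ W ∧ HasCompactSupport W ∧
    (∀ z a, ‖fderiv ℝ W z a‖ ≤ 1 / 8 * ‖a‖) ∧
    (∀ z a b, ‖fderiv ℝ (fderiv ℝ W) z a b‖ ≤ 1 / 2 * ‖a‖ * ‖b‖) ∧
    (∀ z ∈ L, z.1 ∈ Us → ∃ z' ∈ L', Rl W z z') ∧ ∀ z' ∈ L', z'.1 ∈ Us → ∃ z ∈ L, Rl W z z'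

/-- smooth, with bounded and Lipschitz derivative -/
def Lp {A B : Type*} [NormedAddCommGroup A] [NormedSpace ℝ A] [NormedAddCommGroup B]
    [NormedSpace ℝ B] (f : A → B) : Prop :=
  ContDiff ℝ ∞ f ∧ ∃ C : NNReal, LipschitzWith C f ∧ LipschitzWith C (fderiv ℝ f)

/-- `Lp` and bounded -/
def Bd {A B : Type*} [NormedAddCommGroup A] [NormedSpace ℝ A] [NormedAddCommGroup B]
    [NormedSpace ℝ B] (f : A → B) : Prop := Lp f ∧ ∃ C : ℝ, ∀ x, ‖f x‖ ≤ C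

/-- the class of generating families that is stable under the step -/
structure Cl (G0 : V × Y → ℝ) (D0 : Set (V × Y)) (L : Set (V × Vd)) {Z : Type}
    [NormedAddCommGroup Z] [NormedSpace ℝ Z] (Bl : Z →L[ℝ] Z →L[ℝ] ℝ) (b : V × Z → V)
    (η : V × Z → ℝ) : Prop where
  sy : ∀ z z', Bl z z' = Bl z' z
  nd : ∀ z, (∀ z', Bl z z' = 0) → z = 0
  bb : Bd b
  be : Bd η
  bU : ∀ q ∈ Us, ∀ z, b (q, z) ∈ Us
  b0 : ∀ q ∈ Us, nn (b (q, 0)) = nn q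
  gen : Gen (fun x : V × Y × Z => G0 (b (x.1, x.2.2), x.2.1) + 1 / 2 * Bl x.2.2 x.2.2 +
    η (x.1, x.2.2)) {x | (b (x.1, x.2.2), x.2.1) ∈ D0} Us L

/-- `L` has a generating family in the class -/
def Cls (G0 : V × Y → ℝ) (D0 : Set (V × Y)) (L : Set (V × Vd)) : Prop :=
  ∃ (Z : Type) (_ : NormedAddCommGroup Z) (_ : NormedSpace ℝ Z) (_ : FiniteDimensional ℝ Z)
    (Bl : Z →L[ℝ] Z →L[ℝ] ℝ) (b : V × Z → V) (η : V × Z → ℝ), Cl G0 D0 L Bl b η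

section
variable {Z : Type} [NormedAddCommGroup Z] [InnerProductSpace ℝ Z]

/-- the total fibre -/
abbrev Fb (Z : Type) := WithLp 2 (Y × Z)

/-- the retraction on the total fibre -/
def Rt (r : X × Y → Y) (ξ : Z → X) (p : Fb Z) : Fb Z :=
  WithLp.toLp 2 (r (ξ p.snd, p.fst), p.snd)

/-- one gradient step followed by the retraction -/
def fm (r : X × Y → Y) (ξ : Z → X) (gr : Fb Z → Fb Z) (ε : ℝ) (p : Fb Z) : Fb Z :=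
  Rt r ξ (p - ε • gr p)

/-- one member of a family of gradient-like maps, with constant `C` -/
structure One [CompleteSpace Z] (ρ : X × Y → ℝ) (r : X × Y → Y) (w C : ℝ) (ξ : Z → X)
    (g : Fb Z → ℝ) (gr : Fb Z → Fb Z) : Prop where
  un : ∀ z, ‖ξ z‖ = 1
  lx : ∀ z z', ‖ξ z - ξ z'‖ ≤ C * ‖z - z'‖
  gd : ∀ p, HasGradientAt g (gr p) p
  lg : ∀ p p', ‖gr p - gr p'‖ ≤ C * ‖p - p'‖
  mono : ∀ p : Fb Z, ρ (ξ p.snd, p.fst) ≤ w → g (Rt r ξ p) ≤ g p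
  big : ∀ p, g (Rt r ξ p) ≤ g p + C

/-- `(y, z) ↦ (0, B z)` -/
def Bz (B : Z →L[ℝ] Z) (p : Fb Z) : Fb Z := WithLp.toLp 2 (0, B p.snd)

/-- **the output of block (C)**: `g_x = ⟪B z, z⟫ / 2 + γ_x`, `gr` the fibre gradient of `γ` -/
structure Dyn [CompleteSpace Z] (ρ : X × Y → ℝ) (r : X × Y → Y) (w C : ℝ) (B : Z →L[ℝ] Z)
    (ξ : X × Z → X) (γ : X × Fb Z → ℝ) (gr : X × Fb Z → Fb Z) (zz : X → Fb Z) : Prop where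
  sy : ∀ z z', ⟪B z, z'⟫_ℝ = ⟪z, B z'⟫_ℝ
  sq : ∀ z, B (B z) = z
  sx : ContDiff ℝ ∞ ξ
  sg : ContDiff ℝ ∞ γ
  sr : ContDiff ℝ ∞ gr
  gd : ∀ x p, HasGradientAt (fun p => γ (x, p)) (gr (x, p)) p
  x0 : ∀ x, ‖x‖ = 1 → ξ (x, 0) = x
  gb : ∀ x p, ‖x‖ = 1 → ‖gr (x, p)‖ ≤ C
  one : ∀ x τ t : _, ‖x‖ = 1 → τ ∈ Icc (0 : ℝ) 1 → t ∈ Icc (0 : ℝ) 1 → t = 0 ∨ τ = 1 →
    One ρ r w C (fun z => ξ (x, τ • z)) (fun p => 1 / 2 * ⟪B p.snd, p.snd⟫_ℝ + t * γ (x, p))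
      (fun p => Bz B p + t • gr (x, p))
  zc : ContinuousOn zz (Metric.sphere 0 1)
  zi : ∀ x, ‖x‖ = 1 → ρ (ξ (x, (zz x).snd), (zz x).fst) < 0
  zu : ∀ x (p : Fb Z), ‖x‖ = 1 → ρ (ξ (x, p.snd), p.fst) < w → (Bz B p + gr (x, p) = 0 ↔ p = zz x)
  zh : ∀ x v, ‖x‖ = 1 → Bz B v + fderiv ℝ gr (x, zz x) (0, v) = 0 → v = 0
end

/-- C0 + C1 -/
def CONE : Prop := ∀ F, Iso F → ∃ a p h, Cn (fun s => Lc (range (F s))) a p h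

/-- C2 -/
def STP : Prop := ∀ Ls a p h, Cn Ls a p h → ∀ s₀ : ℝ,
  ∀ᶠ σ : ℝ × ℝ in 𝓝 (s₀, s₀), Near (Ls σ.1) (Ls σ.2)

/-- the cone step for `nn` and `Lc` -/
def NNC : Prop := ∀ (E : Type) [NormedAddCommGroup E] [NormedSpace ℝ E] [FiniteDimensional ℝ E]
  (G : V × E → ℝ) (D : Set (V × E)) (U' : Set V) (L : Set (Amb 11)),
  (∀ a ∈ L, InCotangent 11 a) → (∀ q : V, ‖q.1‖ = 1 → ‖q.2‖ = 1 → U' ∈ 𝓝 q) →
  Gen G D U' (Lc L) → Gen (fun x => G (nn x.1, x.2)) {x | (nn x.1, x.2) ∈ D} Us (Lc L)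

/-- the start of the chain -/
def BASE : Prop := ∀ G0 D0 (L : Set (Amb 11)), (∀ a ∈ L, InCotangent 11 a) →
  Gen G0 D0 Us (Lc L) → Cls G0 D0 (Lc L)

/-- C3 in the class -/
def NEXT : Prop := ∀ G0 D0 L (L' : Set (Amb 11)), (∀ a ∈ L', InCotangent 11 a) →
  Near L (Lc L') → Cls G0 D0 L → Cls G0 D0 (Lc L')

/-- a nondegenerate symmetric form is a symmetric involution in suitable coordinates -/
def DIAG : Prop := ∀ (Z : Type) [NormedAddCommGroup Z] [NormedSpace ℝ Z] [FiniteDimensional ℝ Z]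
  (Bl : Z →L[ℝ] Z →L[ℝ] ℝ), (∀ z z', Bl z z' = Bl z' z) → (∀ z, (∀ z', Bl z z' = 0) → z = 0) →
  ∃ (M : ℕ) (e : Eu M ≃L[ℝ] Z) (B : Eu M →L[ℝ] Eu M), (∀ z, B (B z) = z) ∧
    ∀ z z', Bl (e z) (e z') = ⟪B z, z'⟫_ℝ

/-- the end of the chain -/
def TOE : Prop := ∀ ι ρ r w R G0, In ι ρ r w R G0 →
  Cls G0 {p | ρ ((nn p.1).2, p.2) < w} (Lc (range (zeroSection 11))) →
  ∃ (M : ℕ) (C : ℝ) (B : Eu M →L[ℝ] Eu M) (ξ : _) (γ : _) (gr : _) (zz : _),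
    Dyn ρ r w C B ξ γ gr zz

/-- C5: periodic orbits are fixed points; the fixed points -/
def PER : Prop := ∀ ρ r w R, Ret ρ r w R → ∀ C : ℝ, ∃ ε₀ > 0, ∀ ε, 0 < ε → ε ≤ ε₀ →
  ∀ (Z : Type) [NormedAddCommGroup Z] [InnerProductSpace ℝ Z] [CompleteSpace Z]
    (ξ : Z → X) (g : Fb Z → ℝ) (gr : Fb Z → Fb Z), One ρ r w C ξ g gr →
    ∀ (I : Type) [Fintype I] (σ : I ≃ I) (p : I → Fb Z), (∀ i, p (σ i) = fm r ξ gr ε (p i)) →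
      ∀ i, p (σ i) = p i ∧ gr (p i) = 0 ∧ ρ (ξ (p i).snd, (p i).fst) ≤ 0

/-- C5: near the fixed points the map is Lipschitz close to the identity -/
def LIP : Prop := ∀ ρ r w R, Ret ρ r w R → ∀ C η : ℝ, 0 < η → ∃ ε₀ > 0, ∃ δ > 0, ∀ ε, 0 ≤ ε →
  ε ≤ ε₀ → ∀ (Z : Type) [NormedAddCommGroup Z] [InnerProductSpace ℝ Z] [CompleteSpace Z]
    (ξ : Z → X) (g : Fb Z → ℝ) (gr : Fb Z → Fb Z), One ρ r w C ξ g gr →
    ∀ p : Fb Z, gr p = 0 → ρ (ξ p.snd, p.fst) ≤ 0 → ∀ a b, ‖a - p‖ ≤ δ → ‖b - p‖ ≤ δ →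
      ‖(fm r ξ gr ε a - a) - (fm r ξ gr ε b - b)‖ ≤ η * ‖a - b‖

/-- **block (C)** -/
def CM : Prop := ∀ ι ρ r w R G0 (F : ℝ → Sph 9 × Sph 11 → Amb 11), In ι ρ r w R G0 → Iso F →
  F 0 = zeroSection 11 → range (F 1) = range ι →
  ∃ (M : ℕ) (C : ℝ) (B : Eu M →L[ℝ] Eu M) (ξ : _) (γ : _) (gr : _) (zz : _),
    Dyn ρ r w C B ξ γ gr zz

theorem cm (h1 : CONE) (h2 : STP) (h3 : BASE) (h4 : NEXT) (h5 : TOE) : CM := by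
  intro ι ρ r w R G0 F hI hF h0 h1'
  obtain ⟨a, p, h, hc⟩ := h1 F hF
  have hm : ∀ s, ∀ a ∈ range (F s), InCotangent 11 a := by
    rintro s _ ⟨l, rfl⟩; exact (hF.2 s).mem l
  set D0 : Set (V × Y) := {p | ρ ((nn p.1).2, p.2) < w}
  have lc : IsLocallyConstant fun s => Cls G0 D0 (Lc (range (F s))) := by
    refine (IsLocallyConstant.iff_eventually_eq _).2 fun s₀ => ?_
    have k := h2 _ a p h hc s₀
    have t1 : Filter.Tendsto (fun s : ℝ => (s, s₀)) (𝓝 s₀) (𝓝 (s₀, s₀)) :=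
      (continuous_id.prodMk continuous_const).tendsto s₀
    have t2 : Filter.Tendsto (fun s : ℝ => (s₀, s)) (𝓝 s₀) (𝓝 (s₀, s₀)) :=
      (continuous_const.prodMk continuous_id).tendsto s₀
    filter_upwards [t1.eventually k, t2.eventually k] with s u v
    exact propext ⟨h4 _ _ _ _ (hm _) u, h4 _ _ _ _ (hm _) v⟩
  have e := lc.apply_eq_of_preconnectedSpace 0 1
  refine h5 ι ρ r w R G0 hI ?_
  rw [← h0, e]
  exact h3 _ _ _ (hm 1) (h1' ▸ hI.gen)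

end Crest.Agent.N218.C
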