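import Crest.Agent.N218.C.Prim
import Crest.Agent.N218.C.Defs

/-!
# Row 218, block C, leaves C0 + C1 (helper28): the cone of a family of exact Lagrangian embeddings
-/

set_option autoImplicit false

open scoped ContDiff Topology Manifold RealInnerProductSpace
open Set Filter Metric Function
open Crest.GeometryTopology.CotangentSpheres

noncomputable section

namespace Crest.Agent.N218.C

namespace C0

section
variable {E : Type*} [NormedAddCommGroup E] [NormedSpace ℝ E]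

/-- open shells are connected in dimension `> 1` -/
theorem shell_conn (h : 1 < Module.rank ℝ E) {a b : ℝ} (ha : 0 ≤ a) :
    IsPreconnected {y : E | a < ‖y‖ ∧ ‖y‖ < b} := by
  have h1 := ((isPreconnected_Ioo (a := a) (b := b)).prod (isPreconnected_sphere h (0 : E) 1)).image
    (fun p : ℝ × E => p.1 • p.2) (by fun_prop)
  convert h1 using 1
  ext y
  constructor
  · rintro ⟨k1, k2⟩
    have k : 0 < ‖y‖ := ha.trans_lt k1
    refine ⟨(‖y‖, ‖y‖⁻¹ • y), ⟨⟨k1, k2⟩, ?_⟩, ?_⟩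
    · simp [norm_smul, k.ne']
    · simp [smul_smul, k.ne']
  · rintro ⟨⟨t, u⟩, ⟨⟨k1, k2⟩, k3⟩, rfl⟩
    have k4 : ‖u‖ = 1 := by simpa using k3
    have : ‖t • u‖ = t := by
      rw [norm_smul, k4, mul_one, Real.norm_of_nonneg (ha.trans k1.le)]
    exact ⟨this.symm ▸ k1, this.symm ▸ k2⟩

theorem euc_rank (k : ℕ) : 1 < Module.rank ℝ (EuclideanSpace ℝ (Fin (k + 2))) := by
  rw [← Module.finrank_eq_rank, finrank_euclideanSpace_fin]
  exact_mod_cast (by omega : 1 < k + 2)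

/-- the complement of the origin is connected in dimension `> 1` -/
theorem ne_conn (h : 1 < Module.rank ℝ E) : IsPreconnected {y : E | y ≠ 0} :=
  (isConnected_compl_singleton_of_one_lt_rank h 0).isPreconnected

end

/-- the ambient space of the base -/
abbrev VV := EuclideanSpace ℝ (Fin (9 + 1)) × EuclideanSpace ℝ (Fin (11 + 1))

/-- both blocks are non-zero -/
def NN : Set VV := {l | l.1 ≠ 0 ∧ l.2 ≠ 0}

theorem NN_open : IsOpen NN :=
  (isOpen_ne_fun continuous_fst continuous_const).inter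
    (isOpen_ne_fun continuous_snd continuous_const)

theorem NN_conn : IsPreconnected NN := (ne_conn (euc_rank 8)).prod (ne_conn (euc_rank 10))

/-- blockwise projection to the spheres -/
def prs (l : VV) : Sph 9 × Sph 11 := (pr l.1, pr l.2)

theorem prs_smooth {l : VV} (h : l ∈ NN) :
    ContMDiffAt 𝓘(ℝ, VV) ((𝓡 9).prod (𝓡 11)) ∞ prs l :=
  ((pr_smooth h.1).comp l (contDiffAt_fst (𝕜 := ℝ)).contMDiffAt).prodMk
    ((pr_smooth h.2).comp l (contDiffAt_snd (𝕜 := ℝ)).contMDiffAt)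

/-- the pairing of `VV` with itself -/
def cov : VV →L[ℝ] VV →L[ℝ] ℝ :=
  (innerSL ℝ).bilinearComp (ContinuousLinearMap.fst ℝ _ _) (ContinuousLinearMap.fst ℝ _ _) +
    (innerSL ℝ).bilinearComp (ContinuousLinearMap.snd ℝ _ _) (ContinuousLinearMap.snd ℝ _ _)

theorem cov_apply (p w : VV) : cov p w = ⟪p.1, w.1⟫ + ⟪p.2, w.2⟫ := rfl

/-- blockwise scaling of `T^* V` -/
def scl (a b : ℝ) (z : Amb 11) : Amb 11 := ((a • z.1.1, b • z.1.2), (a⁻¹ • z.2.1, b⁻¹ • z.2.2))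

/-- the cone of one map -/
def cone (ι : Sph 9 × Sph 11 → Amb 11) (l : VV) : Amb 11 := scl ‖l.1‖ ‖l.2‖ (ι (prs l))

theorem scl_scl {a b : ℝ} (ha : a ≠ 0) (hb : b ≠ 0) (z : Amb 11) :
    scl a⁻¹ b⁻¹ (scl a b z) = z := by
  simp [scl, smul_smul, ha, hb]

theorem scl_smooth {X : Type*} [NormedAddCommGroup X] [NormedSpace ℝ X] {n : WithTop ℕ∞}
    {a b : X → ℝ} {z : X → Amb 11} {x : X} (ha : ContDiffAt ℝ n a x) (hb : ContDiffAt ℝ n b x)
    (hz : ContDiffAt ℝ n z x) (a0 : a x ≠ 0) (b0 : b x ≠ 0) :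
    ContDiffAt ℝ n (fun x => scl (a x) (b x) (z x)) x :=
  ((ha.smul hz.fst.fst).prodMk (hb.smul hz.fst.snd)).prodMk
    (((ha.inv a0).smul hz.snd.fst).prodMk ((hb.inv b0).smul hz.snd.snd))

theorem n1_smooth {l : VV} (h : l ∈ NN) : ContDiffAt ℝ ∞ (fun l : VV => ‖l.1‖) l :=
  (contDiffAt_norm ℝ h.1).comp l contDiffAt_fst

theorem n2_smooth {l : VV} (h : l ∈ NN) : ContDiffAt ℝ ∞ (fun l : VV => ‖l.2‖) l :=
  (contDiffAt_norm ℝ h.2).comp l contDiffAt_snd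

section one
variable {ι : Sph 9 × Sph 11 → Amb 11}

theorem cone_n1 (h : ∀ q, InCotangent 11 (ι q)) (l : VV) : ‖(cone ι l).1.1‖ = ‖l.1‖ := by
  simp [cone, scl, norm_smul, (h _).1]

theorem cone_n2 (h : ∀ q, InCotangent 11 (ι q)) (l : VV) : ‖(cone ι l).1.2‖ = ‖l.2‖ := by
  simp [cone, scl, norm_smul, (h _).2.1]

theorem cone_NN (h : ∀ q, InCotangent 11 (ι q)) {l : VV} (hl : l ∈ NN) : (cone ι l).1 ∈ NN :=
  ⟨norm_ne_zero_iff.1 (cone_n1 h l ▸ norm_ne_zero_iff.2 hl.1),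
    norm_ne_zero_iff.1 (cone_n2 h l ▸ norm_ne_zero_iff.2 hl.2)⟩

theorem cone_coe (ι : Sph 9 × Sph 11 → Amb 11) (q : Sph 9 × Sph 11) {a b : ℝ} (ha : 0 < a)
    (hb : 0 < b) : cone ι (a • q.1.1, b • q.2.1) = scl a b (ι q) := by
  simp only [cone, prs, pr_smul _ ha, pr_smul _ hb]
  simp [norm_smul, abs_of_pos ha, abs_of_pos hb]

/-- the image of the cone map -/
theorem cone_image (ι : Sph 9 × Sph 11 → Amb 11) :
    cone ι '' NN = {z | ∃ a > 0, ∃ b > 0, ∃ y ∈ range ι, z = scl a b y} := by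
  ext z
  constructor
  · rintro ⟨l, hl, rfl⟩
    exact ⟨_, norm_pos_iff.2 hl.1, _, norm_pos_iff.2 hl.2, _, ⟨_, rfl⟩, rfl⟩
  · rintro ⟨a, ha, b, hb, _, ⟨q, rfl⟩, rfl⟩
    exact ⟨_, ⟨smul_ne_zero ha.ne' (ne_zero_of_mem_unit_sphere q.1),
      smul_ne_zero hb.ne' (ne_zero_of_mem_unit_sphere q.2)⟩, cone_coe ι q ha hb⟩

theorem cone_zero {l : VV} : cone (zeroSection 11) l = (l, 0) := by
  simp [cone, scl, zeroSection, prs, smul_pr]

variable (h : IsExactLagEmbedding 11 ι)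
include h

theorem cone_inj : InjOn (cone ι) NN := by
  intro l hl l' hl' e
  have e1 : ‖l.1‖ = ‖l'.1‖ := by rw [← cone_n1 h.mem l, e, cone_n1 h.mem]
  have e2 : ‖l.2‖ = ‖l'.2‖ := by rw [← cone_n2 h.mem l, e, cone_n2 h.mem]
  have e3 : ι (prs l) = ι (prs l') := by
    have := congrArg (scl ‖l.1‖⁻¹ ‖l.2‖⁻¹) e
    rwa [cone, cone, ← e1, ← e2, scl_scl (norm_ne_zero_iff.2 hl.1) (norm_ne_zero_iff.2 hl.2),
      scl_scl (norm_ne_zero_iff.2 hl.1) (norm_ne_zero_iff.2 hl.2)] at this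
  have e4 := h.injective e3
  refine Prod.ext ?_ ?_
  · rw [← smul_pr l.1, ← smul_pr l'.1, e1]; exact congrArg (fun q => ‖l'.1‖ • q.1.1) e4
  · rw [← smul_pr l.2, ← smul_pr l'.2, e2]; exact congrArg (fun q => ‖l'.2‖ • q.2.1) e4

theorem ip_smooth {l : VV} (hl : l ∈ NN) : ContDiffAt ℝ ∞ (fun l => ι (prs l)) l :=
  ((h.contMDiff _).comp l (prs_smooth hl)).contDiffAt

theorem cone_smooth {l : VV} (hl : l ∈ NN) : ContDiffAt ℝ ∞ (cone ι) l :=
  scl_smooth (n1_smooth hl) (n2_smooth hl) (ip_smooth h hl) (norm_ne_zero_iff.2 hl.1)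
    (norm_ne_zero_iff.2 hl.2)

omit h in
/-- chain rule through the spheres -/
theorem fd_prs {W : Type*} [NormedAddCommGroup W] [NormedSpace ℝ W] {g : Sph 9 × Sph 11 → W}
    (hg : ContMDiff ((𝓡 9).prod (𝓡 11)) 𝓘(ℝ, W) ∞ g) {l : VV} (hl : l ∈ NN) (v : VV) :
    fderiv ℝ (fun l => g (prs l)) l v = mfderiv ((𝓡 9).prod (𝓡 11)) 𝓘(ℝ, W) g (prs l)
      (mfderiv 𝓘(ℝ, VV) ((𝓡 9).prod (𝓡 11)) prs l v) := by
  rw [← mfderiv_eq_fderiv]
  exact ContinuousLinearMap.ext_iff.1 (mfderiv_comp l ((hg _).mdifferentiableAt (by simp))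
    ((prs_smooth hl).mdifferentiableAt (by simp))) v

theorem cone_imm {l : VV} (hl : l ∈ NN) : Injective (fderiv ℝ (cone ι) l) := by
  rw [injective_iff_map_eq_zero]
  intro v hv
  have dc := ((cone_smooth h hl).differentiableAt (by simp)).hasFDerivAt
  -- any smooth function of the cone has zero derivative along `v`
  have key : ∀ {W : Type} [NormedAddCommGroup W] [NormedSpace ℝ W] {g : Amb 11 → W} {k : VV → W},
      ContDiffAt ℝ ∞ g (cone ι l) → (∀ l ∈ NN, g (cone ι l) = k l) → fderiv ℝ k l v = 0 := by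
    intro W _ _ g k hg e
    have d := (hg.differentiableAt (by simp)).hasFDerivAt.comp l dc
    have e' : k =ᶠ[𝓝 l] g ∘ cone ι := by
      filter_upwards [NN_open.mem_nhds hl] with l' hl' using (e l' hl').symm
    rw [(d.congr_of_eventuallyEq e').fderiv]
    simp [hv]
  have c := cone_NN h.mem hl
  have s1 : ContDiffAt ℝ ∞ (fun z : Amb 11 => ‖z.1.1‖) (cone ι l) :=
    (n1_smooth c).comp _ contDiffAt_fst
  have s2 : ContDiffAt ℝ ∞ (fun z : Amb 11 => ‖z.1.2‖) (cone ι l) :=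
    (n2_smooth c).comp _ contDiffAt_fst
  have k1 := key s1 fun l _ => cone_n1 h.mem l
  have k2 := key s2 fun l _ => cone_n2 h.mem l
  have k3 := key (k := fun l => ι (prs l)) (scl_smooth (s1.inv (norm_ne_zero_iff.2 c.1))
    (s2.inv (norm_ne_zero_iff.2 c.2)) contDiffAt_id (inv_ne_zero (norm_ne_zero_iff.2 c.1))
    (inv_ne_zero (norm_ne_zero_iff.2 c.2))) fun l hl => by
      simp only [Pi.inv_apply, cone_n1 h.mem, cone_n2 h.mem, id]
      exact scl_scl (norm_ne_zero_iff.2 hl.1) (norm_ne_zero_iff.2 hl.2) _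
  rw [fd_prs h.contMDiff hl] at k3
  have k4 : mfderiv 𝓘(ℝ, VV) ((𝓡 9).prod (𝓡 11)) prs l v = 0 :=
    h.immersion _ (k3.trans (map_zero _).symm)
  have : Fact (Module.finrank ℝ (EuclideanSpace ℝ (Fin (9 + 1))) = 9 + 1) := ⟨by simp⟩
  have : Fact (Module.finrank ℝ (EuclideanSpace ℝ (Fin (11 + 1))) = 11 + 1) := ⟨by simp⟩
  have g1 : ContMDiff ((𝓡 9).prod (𝓡 11)) 𝓘(ℝ, EuclideanSpace ℝ (Fin (9 + 1))) ∞
      fun q : Sph 9 × Sph 11 => q.1.1 := contMDiff_coe_sphere.comp contMDiff_fst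
  have g2 : ContMDiff ((𝓡 9).prod (𝓡 11)) 𝓘(ℝ, EuclideanSpace ℝ (Fin (11 + 1))) ∞
      fun q : Sph 9 × Sph 11 => q.2.1 := contMDiff_coe_sphere.comp contMDiff_snd
  have k5 := fd_prs g1 hl v
  have k6 := fd_prs g2 hl v
  rw [k4, map_zero] at k5 k6
  have k7 : fderiv ℝ (fun l : VV => ((prs l).1 : EuclideanSpace ℝ (Fin (9 + 1)))) l v = 0 := k5
  have k8 : fderiv ℝ (fun l : VV => ((prs l).2 : EuclideanSpace ℝ (Fin (11 + 1)))) l v = 0 := k6
  have d1 := (((n1_smooth hl).differentiableAt (by simp)).hasFDerivAt.smul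
    ((((g1 _).comp l (prs_smooth hl)).contDiffAt.differentiableAt (by simp)).hasFDerivAt))
  have d2 := (((n2_smooth hl).differentiableAt (by simp)).hasFDerivAt.smul
    ((((g2 _).comp l (prs_smooth hl)).contDiffAt.differentiableAt (by simp)).hasFDerivAt))
  have e1 := ContinuousLinearMap.ext_iff.1 (d1.unique ((hasFDerivAt_fst (𝕜 := ℝ) (p := l)).congr_of_eventuallyEq
    (.of_forall fun l => smul_pr l.1))) v
  have e2 := ContinuousLinearMap.ext_iff.1 (d2.unique ((hasFDerivAt_snd (𝕜 := ℝ) (p := l)).congr_of_eventuallyEq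
    (.of_forall fun l => smul_pr l.2))) v
  simp only [Function.comp_def] at e1 e2
  refine Prod.ext ?_ ?_
  · simpa [k1, k7] using e1.symm
  · simpa [k2, k8] using e2.symm

/-- exactness of the cone -/
theorem cone_exact : ∃ H : VV → ℝ, (∀ l, H l = H ((prs l).1.1, (prs l).2.1)) ∧ ∀ l ∈ NN, HasFDerivAt H
    ((cov (cone ι l).2).comp (fderiv ℝ (fun l => (cone ι l).1) l)) l := by
  obtain ⟨H, hH, e⟩ := h.exact
  refine ⟨fun l => H (prs l), fun l => by simp only [prs, pr_coe], fun l hl => ?_⟩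
  have dH := (((hH _).comp l (prs_smooth hl)).contDiffAt.differentiableAt (by simp)).hasFDerivAt
  have g1 : ContMDiff ((𝓡 9).prod (𝓡 11)) 𝓘(ℝ, EuclideanSpace ℝ (Fin (9 + 1))) ∞
      fun q => (ι q).1.1 := (contDiff_fst.comp contDiff_fst).contMDiff.comp h.contMDiff
  have g2 : ContMDiff ((𝓡 9).prod (𝓡 11)) 𝓘(ℝ, EuclideanSpace ℝ (Fin (11 + 1))) ∞
      fun q => (ι q).1.2 := (contDiff_snd.comp contDiff_fst).contMDiff.comp h.contMDiff
  have d1 := (((n1_smooth hl).differentiableAt (by simp)).hasFDerivAt.smul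
    ((((g1 _).comp l (prs_smooth hl)).contDiffAt.differentiableAt (by simp)).hasFDerivAt))
  have d2 := (((n2_smooth hl).differentiableAt (by simp)).hasFDerivAt.smul
    ((((g2 _).comp l (prs_smooth hl)).contDiffAt.differentiableAt (by simp)).hasFDerivAt))
  have d3 : HasFDerivAt (fun l => (cone ι l).1) _ l := d1.prodMk d2
  rw [d3.fderiv]
  refine dH.congr_fderiv (ContinuousLinearMap.ext fun v => Eq.symm ?_)
  have m := h.mem (prs l)
  have i1 : ⟪(ι (prs l)).2.1, (ι (prs l)).1.1⟫ = 0 := by rw [real_inner_comm]; exact m.2.2.1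
  have i2 : ⟪(ι (prs l)).2.2, (ι (prs l)).1.2⟫ = 0 := by rw [real_inner_comm]; exact m.2.2.2
  simp only [Function.comp_def]
  rw [fd_prs hH hl, e, ← fd_prs g1 hl, ← fd_prs g2 hl]
  simp [cov_apply, cone, scl, inner_add_right, inner_smul_left, inner_smul_right, i1, i2,
    norm_ne_zero_iff.2 hl.1, norm_ne_zero_iff.2 hl.2]

end one

section fam
variable {F : ℝ → Sph 9 × Sph 11 → Amb 11}
  (hF : ContMDiff (𝓘(ℝ, ℝ).prod ((𝓡 9).prod (𝓡 11))) 𝓘(ℝ, Amb 11) ∞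
    (fun p : ℝ × (Sph 9 × Sph 11) => F p.1 p.2))
include hF

theorem fam_smooth : ContDiffOn ℝ ∞ (fun p : ℝ × VV => cone (F p.1) p.2) (univ ×ˢ NN) := by
  rintro p ⟨-, hl⟩
  have a1 : ContMDiffAt 𝓘(ℝ, ℝ × VV) (𝓘(ℝ, ℝ).prod ((𝓡 9).prod (𝓡 11))) ∞
      (fun p : ℝ × VV => (p.1, prs p.2)) p :=
    (contDiffAt_fst (𝕜 := ℝ)).contMDiffAt.prodMk
      ((prs_smooth hl).comp p (contDiffAt_snd (𝕜 := ℝ)).contMDiffAt)
  have a2 : ContDiffAt ℝ ∞ (fun p : ℝ × VV => F p.1 (prs p.2)) p :=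
    ((hF _).comp p a1).contDiffAt
  exact (scl_smooth ((n1_smooth hl).comp p contDiffAt_snd) ((n2_smooth hl).comp p contDiffAt_snd)
    a2 (norm_ne_zero_iff.2 hl.1) (norm_ne_zero_iff.2 hl.2)).contDiffWithinAt

/-- **C1**: jointly smooth potentials of the cones -/
theorem fam_pot (hE : ∀ s, IsExactLagEmbedding 11 (F s)) :
    ∃ H : ℝ × VV → ℝ, ContDiffOn ℝ ∞ H (univ ×ˢ NN) ∧
      (∀ s l, H (s, l) = H (s, ((prs l).1.1, (prs l).2.1))) ∧ ∀ s, ∀ l ∈ NN,
      HasFDerivAt (fun l => H (s, l))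
        ((cov (cone (F s) l).2).comp (fderiv ℝ (fun l => (cone (F s) l).1) l)) l := by
  choose H H0 hH using fun s => cone_exact (hE s)
  have sm := fam_smooth hF
  have op : IsOpen ((univ : Set ℝ) ×ˢ NN) := isOpen_univ.prod NN_open
  have s1 : ContDiffOn ℝ ∞ (fun p : ℝ × VV => (cone (F p.1) p.2).1) (univ ×ˢ NN) := sm.fst
  have s2 : ContDiffOn ℝ ∞ (fun p : ℝ × VV => (cov (cone (F p.1) p.2).2).comp
      ((fderiv ℝ (fun p : ℝ × VV => (cone (F p.1) p.2).1) p).comp (ContinuousLinearMap.inr ℝ ℝ VV)))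
      (univ ×ˢ NN) :=
    (cov.contDiff.comp_contDiffOn sm.snd).clm_comp
      ((s1.fderiv_of_isOpen op (by simp)).clm_comp contDiffOn_const)
  have e : ∀ s, ∀ l ∈ NN, fderiv ℝ (fun l => (cone (F s) l).1) l =
      (fderiv ℝ (fun p : ℝ × VV => (cone (F p.1) p.2).1) (s, l)).comp
        (ContinuousLinearMap.inr ℝ ℝ VV) := fun s l hl =>
    (((s1.contDiffAt (op.mem_nhds ⟨trivial, hl⟩)).differentiableAt (by simp)).hasFDerivAt.comp l
      (hasFDerivAt_prodMk_right s l)).fderiv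
  let l₀ : VV := (EuclideanSpace.single 0 1, EuclideanSpace.single 0 1)
  have h0 : l₀ ∈ NN := ⟨by simp [l₀], by simp [l₀]⟩
  refine ⟨_, prim NN_open NN_conn s2 (H := H) (fun s l hl => e s l hl ▸ hH s l hl) h0,
    fun s l => by simp only [← H0], fun s l hl => (hH s l hl).sub_const (H s l₀)⟩

end fam

theorem cov_inj {p : VV} (h : cov p = 0) : p = 0 := by
  have := ContinuousLinearMap.ext_iff.1 h p
  rw [cov_apply, real_inner_self_eq_norm_sq, real_inner_self_eq_norm_sq] at this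
  have h0 : ‖p.1‖ ^ 2 + ‖p.2‖ ^ 2 = 0 := this
  have h1 : ‖p.1‖ ^ 2 = 0 := by nlinarith [sq_nonneg ‖p.1‖, sq_nonneg ‖p.2‖]
  have h2 : ‖p.2‖ ^ 2 = 0 := by nlinarith [sq_nonneg ‖p.1‖, sq_nonneg ‖p.2‖]
  exact Prod.ext (by simpa using h1) (by simpa using h2)

theorem Lc_range (ι : Sph 9 × Sph 11 → Amb 11) :
    Lc (range ι) = (fun l => ((cone ι l).1, cov (cone ι l).2)) '' Nz := by
  have e : (fun l => ((cone ι l).1, cov (cone ι l).2)) '' Nz =
      (fun z : Amb 11 => (z.1, cov z.2)) '' (cone ι '' NN) := by rw [image_image]; rfl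
  rw [e, cone_image]
  ext z
  constructor
  · rintro ⟨y, hy, a, b, ha, hb, e1, e2⟩
    refine ⟨_, ⟨a, ha, b, hb, y, hy, rfl⟩, Prod.ext e1.symm (ContinuousLinearMap.ext fun w => ?_)⟩
    rw [e2]
    simp [cov_apply, scl, inner_smul_left]
  · rintro ⟨_, ⟨a, ha, b, hb, y, hy, rfl⟩, rfl⟩
    exact ⟨y, hy, a, b, ha, hb, rfl, fun w => by simp [cov_apply, scl, inner_smul_left]⟩

end C0

open C0 in
/-- **C0 + C1** -/
theorem cone : CONE := by
  intro F hF
  obtain ⟨H, sH, -, dH⟩ := fam_pot hF.1 hF.2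
  have sm := fam_smooth hF.1
  refine ⟨fun p => (C0.cone (F p.1) p.2).1, fun p => cov (C0.cone (F p.1) p.2).2, H, sm.fst,
    cov.contDiff.comp_contDiffOn sm.snd, sH,
    fun s l _ => ⟨cone_n1 (hF.2 s).mem l, cone_n2 (hF.2 s).mem l⟩, fun s => Lc_range _,
    fun s l hl l' hl' e => ?_, fun s l hl v e1 e2 => ?_, fun s l hl v => ?_⟩
  · refine cone_inj (hF.2 s) hl hl' (Prod.ext (Prod.ext_iff.1 e).1 (sub_eq_zero.1 (cov_inj ?_)))
    rw [map_sub, sub_eq_zero]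
    exact (Prod.ext_iff.1 e).2
  · have dc := ((cone_smooth (hF.2 s) hl).differentiableAt (by simp)).hasFDerivAt
    have d1 : HasFDerivAt (fun l => (C0.cone (F s) l).1) _ l := dc.fst
    have d2 : HasFDerivAt (fun l => cov (C0.cone (F s) l).2) _ l :=
      cov.hasFDerivAt.comp l dc.snd
    rw [d1.fderiv] at e1
    rw [d2.fderiv] at e2
    refine cone_imm (hF.2 s) hl ?_
    rw [map_zero]
    exact Prod.ext e1 (cov_inj e2)
  · rw [(dH s l hl).fderiv]
    rfl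

end Crest.Agent.N218.C
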