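import Crest.Agent.N218.C.Defs

/-! Row 218, block (C) (helper72): `LIP`. -/

set_option autoImplicit false
open scoped ContDiff Topology
open Set

noncomputable section

namespace Crest.Agent.N218.C

/-- the retraction is Lipschitz close to the projection near the region where it is the identity -/
theorem Ret.lip {ρ : X × Y → ℝ} {r : X × Y → Y} {w R : ℝ} (h : Ret ρ r w R) {η : ℝ} (hη : 0 < η) :
    ∃ δ > 0, ∀ u : X × Y, ‖u.1‖ = 1 → ρ u ≤ 0 → ∀ a b : X × Y, ‖a.1‖ = 1 → ‖b.1‖ = 1 →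
      ‖a - u‖ < δ → ‖b - u‖ < δ → ‖(r a - a.2) - (r b - b.2)‖ ≤ η * ‖a - b‖ := by
  obtain ⟨f, hf⟩ : ∃ f : X × Y → Y, f = fun u => r (‖u.1‖⁻¹ • u.1, u.2) - u.2 := ⟨_, rfl⟩
  have n : ∀ u : X × Y, u.1 ≠ 0 → ContDiffAt ℝ ∞ (fun u : X × Y => (‖u.1‖⁻¹ • u.1, u.2)) u :=
    fun u k => (((contDiffAt_fst.norm ℝ k).inv (norm_ne_zero_iff.2 k)).smul contDiffAt_fst).prodMk
      contDiffAt_snd
  have s : ∀ u : X × Y, u.1 ≠ 0 → ContDiffAt ℝ ∞ f u := fun u k =>
    hf ▸ (h.rs.contDiffAt.comp u (n u k)).sub contDiffAt_snd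
  have c : ∀ u : X × Y, u.1 ≠ 0 → ContinuousAt (fderiv ℝ f) u := fun u k =>
    ((s u k).fderiv_right (m := 0) (by simp)).continuousAt
  have o : IsOpen {u : X × Y | u.1 ≠ 0} := isOpen_ne.preimage continuous_fst
  have nz : ∀ x : X, ‖x‖ = 1 → x ≠ 0 := fun x k e => by simp [e] at k
  have z1 : ∀ x y, ‖x‖ = 1 → ρ (x, y) < 0 → fderiv ℝ f (x, y) = 0 := fun x y k m => by
    have : f =ᶠ[𝓝 (x, y)] fun _ => 0 := by
      have := (h.ρc.continuousAt.comp (n (x, y) (nz x k)).continuousAt).eventually_lt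
        continuousAt_const (show _ < (0 : ℝ) by simpa [k] using m)
      filter_upwards [this, o.mem_nhds (nz x k)] with u a b
      rw [hf]
      exact sub_eq_zero.2 (h.fix _ _ (norm_smul_inv_norm b) a.le)
    rw [this.fderiv_eq, fderiv_fun_const]; rfl
  have z2 : ∀ x y, ‖x‖ = 1 → ρ (x, y) ≤ 0 → fderiv ℝ f (x, y) = 0 := fun x y k m => by
    have : Continuous fun y => fderiv ℝ f (x, y) := continuous_iff_continuousAt.2 fun y =>
      (c (x, y) (nz x k)).comp (continuous_const.prodMk continuous_id).continuousAt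
    exact closure_minimal (fun y' m' => z1 x y' k m') (isClosed_eq this continuous_const)
      (h.cl x y k m)
  have K : IsCompact {u : X × Y | ‖u.1‖ = 1 ∧ ρ u ≤ 0} := by
    refine ((isCompact_sphere (0 : X) 1).prod (isCompact_closedBall (0 : Y) R)).of_isClosed_subset
      ((isClosed_eq continuous_fst.norm continuous_const).inter
        (isClosed_le h.ρc continuous_const)) fun u k => ⟨by simpa using k.1, ?_⟩
    simpa using (h.bl u.1 u.2 k.1 (k.2.trans h.w0.le)).le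
  have O : IsOpen ({u : X × Y | u.1 ≠ 0} ∩ fderiv ℝ f ⁻¹' Metric.ball 0 η) :=
    ContinuousOn.isOpen_inter_preimage (fun u k => (c u k).continuousWithinAt) o Metric.isOpen_ball
  obtain ⟨δ, d0, d1⟩ := K.exists_thickening_subset_open O fun u k =>
    ⟨nz _ k.1, by simpa [z2 u.1 u.2 k.1 k.2] using hη⟩
  refine ⟨δ, d0, fun u k m a b ha hb da db => ?_⟩
  have B := (Metric.ball_subset_thickening (show u ∈ {u : X × Y | ‖u.1‖ = 1 ∧ ρ u ≤ 0} from ⟨k, m⟩)
    δ).trans d1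
  have := (convex_ball u δ).norm_image_sub_le_of_norm_fderiv_le (f := f) (𝕜 := ℝ)
    (fun v hv => (s v (B hv).1).differentiableAt (by simp))
    (fun v hv => (mem_ball_zero_iff.1 (B hv).2).le) (mem_ball_iff_norm.2 db) (mem_ball_iff_norm.2 da)
  simpa [hf, ha, hb] using this

theorem lip : LIP := by
  intro ρ r w R h C η hη
  obtain ⟨c, hc, c1⟩ : ∃ c : ℝ, C ≤ c ∧ 1 ≤ c := ⟨_, le_max_left _ 1, le_max_right _ _⟩
  obtain ⟨δ, d0, hδ⟩ := h.lip (η := η / (4 * c)) (by positivity)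
  refine ⟨min 1 (η / 2) / c, by positivity, δ / (3 * c), by positivity,
    fun ε e0 e1 Z _ _ _ ξ g gr o p hp mp a b da db => ?_⟩
  rw [le_div_iff₀ (by positivity), le_min_iff] at e1
  have l1 : ∀ a b : Fb Z, ‖ε • gr a - ε • gr b‖ ≤ ε * c * ‖a - b‖ := fun a b => by
    rw [← smul_sub, norm_smul, Real.norm_of_nonneg e0, mul_assoc]
    exact mul_le_mul_of_nonneg_left ((o.lg a b).trans (by gcongr)) e0
  obtain ⟨u, hu⟩ : ∃ u : Fb Z → X × Y, ∀ a, u a = (ξ a.snd, a.fst) := ⟨_, fun _ => rfl⟩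
  obtain ⟨m, hm⟩ : ∃ m : Fb Z → Fb Z, ∀ a, m a = a - ε • gr a := ⟨_, fun _ => rfl⟩
  have un : ∀ a, ‖(u a).1‖ = 1 := fun a => by rw [hu]; exact o.un _
  have l2 : ∀ a b : Fb Z, ‖u (m a) - u (m b)‖ ≤ 2 * c * ‖a - b‖ := fun a b => by
    have k : ‖m a - m b‖ ≤ 2 * ‖a - b‖ := by
      rw [hm, hm, sub_sub_sub_comm]
      refine (norm_sub_le _ _).trans ?_
      linarith [l1 a b, mul_le_mul_of_nonneg_right e1.1 (norm_nonneg (a - b))]
    have k1 : ‖(m a).fst - (m b).fst‖ ≤ ‖m a - m b‖ := WithLp.norm_fst_le _ (m a - m b)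
    have k2 : ‖(m a).snd - (m b).snd‖ ≤ ‖m a - m b‖ := WithLp.norm_snd_le _ (m a - m b)
    have k3 := (o.lx (m a).snd (m b).snd).trans (mul_le_mul hc k2 (norm_nonneg _) (by positivity))
    rw [hu, hu, Prod.mk_sub_mk, Prod.norm_mk, max_le_iff]
    have k4 := mul_le_mul_of_nonneg_left k (zero_le_one.trans c1)
    have k5 := mul_le_mul_of_nonneg_right c1 (norm_nonneg (a - b))
    constructor <;> linarith
  have l3 : ∀ a : Fb Z, ‖a - p‖ ≤ δ / (3 * c) → ‖u (m a) - u p‖ < δ := fun a k => by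
    have := l2 a p
    rw [hm p, hp, smul_zero, sub_zero] at this
    rw [le_div_iff₀ (by positivity)] at k
    linarith
  have l4 := (hδ (u p) (un _) (by rwa [hu]) _ _ (un _) (un _) (l3 a da) (l3 b db)).trans
    (mul_le_mul_of_nonneg_left (l2 a b) (by positivity))
  have l5 : ∀ a : Fb Z, fm r ξ gr ε a - a =
      WithLp.toLp 2 (r (u (m a)) - (u (m a)).2, (0 : Z)) - ε • gr a := fun a => by
    rw [hu, hm]
    refine WithLp.ofLp_injective 2 (Prod.ext ?_ ?_) <;> simp [fm, Rt, sub_sub]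
  rw [l5, l5, sub_sub_sub_comm]
  refine (norm_sub_le _ _).trans ?_
  rw [← WithLp.toLp_sub, Prod.mk_sub_mk, sub_zero, WithLp.norm_toLp_fst]
  have e : η / (4 * c) * (2 * c * ‖a - b‖) = η / 2 * ‖a - b‖ := by field_simp; ring
  linarith [l1 a b, mul_le_mul_of_nonneg_right e1.2 (norm_nonneg (a - b))]

end Crest.Agent.N218.C
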