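import Crest.Agent.N218.C.Per
import Crest.Agent.N218.C.Lip

/-! Row 218, block (C): the path of maps `fs ε s x`, `s ∈ [0, 2]`. -/

set_option autoImplicit false
set_option linter.unusedSectionVars false
open scoped ContDiff Topology InnerProductSpace
open Set Filter

noncomputable section

namespace Crest.Agent.N218.C

variable {Z : Type} [NormedAddCommGroup Z] [InnerProductSpace ℝ Z]

/-- the path of maps: `s = 0` product map, `s = 2` gradient step of `g_x` and retraction -/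
def fs (r : X × Y → Y) (B : Z →L[ℝ] Z) (ξ : X × Z → X) (gr : X × Fb Z → Fb Z) (ε s : ℝ) (x : X) :
    Fb Z → Fb Z :=
  fm r (fun z => ξ (x, min s 1 • z)) (fun p => Bz B p + max (s - 1) 0 • gr (x, p)) ε

@[simp] theorem Bz_fst (B : Z →L[ℝ] Z) (p : Fb Z) : (Bz B p).fst = 0 := rfl
@[simp] theorem Bz_snd (B : Z →L[ℝ] Z) (p : Fb Z) : (Bz B p).snd = B p.snd := rfl
@[simp] theorem Rt_fst (r : X × Y → Y) (ξ : Z → X) (p : Fb Z) :
    (Rt r ξ p).fst = r (ξ p.snd, p.fst) := rfl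
@[simp] theorem Rt_snd (r : X × Y → Y) (ξ : Z → X) (p : Fb Z) : (Rt r ξ p).snd = p.snd := rfl

theorem Fb.ext {p p' : Fb Z} (h1 : p.fst = p'.fst) (h2 : p.snd = p'.snd) : p = p' :=
  WithLp.ofLp_injective 2 (Prod.ext h1 h2)

theorem cont_Bz (B : Z →L[ℝ] Z) : Continuous (Bz B) :=
  (WithLp.prod_continuous_toLp 2 Y Z).comp
    (continuous_const.prodMk (B.continuous.comp (WithLp.continuous_snd 2 Y Z)))

theorem cont_fs {r : X × Y → Y} (B : Z →L[ℝ] Z) {ξ : X × Z → X} {gr : X × Fb Z → Fb Z}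
    (hr : Continuous r) (hξ : Continuous ξ) (hg : Continuous gr) {T : Type*} [TopologicalSpace T]
    {ε s : T → ℝ} {x : T → X} {p : T → Fb Z} (h1 : Continuous ε) (h2 : Continuous s)
    (h3 : Continuous x) (h4 : Continuous p) :
    Continuous fun t => fs r B ξ gr (ε t) (s t) (x t) (p t) := by
  have a : Continuous fun t => p t - ε t • (Bz B (p t) + max (s t - 1) 0 • gr (x t, p t)) :=
    h4.sub (h1.smul (((cont_Bz B).comp h4).add
      (((h2.sub continuous_const).max continuous_const).smul (hg.comp (h3.prodMk h4)))))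
  have a1 := (WithLp.continuous_fst 2 Y Z).comp a
  have a2 := (WithLp.continuous_snd 2 Y Z).comp a
  exact (WithLp.prod_continuous_toLp 2 Y Z).comp
    ((hr.comp ((hξ.comp (h3.prodMk ((h2.min continuous_const).smul a2))).prodMk a1)).prodMk a2)

theorem fs_two (r : X × Y → Y) (B : Z →L[ℝ] Z) (ξ : X × Z → X) (gr : X × Fb Z → Fb Z) (ε : ℝ)
    (x : X) : fs r B ξ gr ε 2 x = fm r (fun z => ξ (x, z)) (fun p => Bz B p + gr (x, p)) ε := by
  have a : min (2 : ℝ) 1 = 1 := by norm_num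
  have b : max ((2 : ℝ) - 1) 0 = 1 := by norm_num
  simp only [fs, a, b, one_smul]

variable [CompleteSpace Z] {ρ : X × Y → ℝ} {r : X × Y → Y} {w R C : ℝ} {B : Z →L[ℝ] Z}
  {ξ : X × Z → X} {γ : X × Fb Z → ℝ} {gr : X × Fb Z → Fb Z} {zz : X → Fb Z}

theorem Dyn.fs_zero (h : Dyn ρ r w C B ξ γ gr zz) (ε : ℝ) {x : X} (hx : ‖x‖ = 1) (p : Fb Z) :
    fs r B ξ gr ε 0 x p = WithLp.toLp 2 (r (x, p.fst), p.snd - ε • B p.snd) := by
  refine Fb.ext ?_ ?_ <;> simp [fs, fm, h.x0 x hx]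

theorem Dyn.norm_B (h : Dyn ρ r w C B ξ γ gr zz) (z : Z) : ‖B z‖ = ‖z‖ := by
  have := h.sy z (B z)
  rw [h.sq, real_inner_self_eq_norm_sq, real_inner_self_eq_norm_sq] at this
  exact (sq_eq_sq₀ (norm_nonneg _) (norm_nonneg _)).1 this

theorem Dyn.one_s (h : Dyn ρ r w C B ξ γ gr zz) {x : X} (hx : ‖x‖ = 1) {s : ℝ}
    (hs : s ∈ Icc (0 : ℝ) 2) : One ρ r w C (fun z => ξ (x, min s 1 • z))
      (fun p => 1 / 2 * ⟪B p.snd, p.snd⟫_ℝ + max (s - 1) 0 * γ (x, p))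
      (fun p => Bz B p + max (s - 1) 0 • gr (x, p)) :=
  h.one x _ _ hx ⟨le_min hs.1 zero_le_one, min_le_right _ _⟩
    ⟨le_max_right _ _, max_le (by linarith [hs.2]) zero_le_one⟩
    ((le_total s 1).imp (fun a => max_eq_right (by linarith)) fun a => min_eq_right a)

/-- `fs` is the linear map `(0, 1 - ε B)` up to a bounded term -/
theorem Dyn.fs_bdd (h : Dyn ρ r w C B ξ γ gr zz) (H : Ret ρ r w R) {ε : ℝ} (e0 : 0 ≤ ε) {x : X}
    (hx : ‖x‖ = 1) {s : ℝ} (hs : s ∈ Icc (0 : ℝ) 2) (p : Fb Z) :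
    ‖(fs r B ξ gr ε s x p).fst‖ ≤ R ∧
      ‖(fs r B ξ gr ε s x p).snd - (p.snd - ε • B p.snd)‖ ≤ ε * C := by
  have u := (h.one_s hx hs).un
  refine ⟨(H.bl _ _ (u _) ((H.half _ _ (u _)).trans (by linarith [H.w0]))).le, ?_⟩
  have e : (fs r B ξ gr ε s x p).snd - (p.snd - ε • B p.snd) =
      -(ε • max (s - 1) 0 • (gr (x, p)).snd) := by simp [fs, fm]
  have m0 : 0 ≤ max (s - 1) 0 := le_max_right _ _
  have m1 : max (s - 1) 0 ≤ 1 := max_le (by linarith [hs.2]) zero_le_one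
  rw [e, norm_neg, norm_smul, norm_smul, Real.norm_of_nonneg e0, Real.norm_of_nonneg m0]
  have k := (WithLp.norm_snd_le (p := 2) Y (gr (x, p))).trans (h.gb x p hx)
  exact mul_le_mul_of_nonneg_left ((mul_le_of_le_one_left (norm_nonneg _) m1).trans k) e0

/-- periodic orbits are fixed points, and near them `fs - id` is `η`-Lipschitz -/
theorem Dyn.adm (h : Dyn ρ r w C B ξ γ gr zz) (H : Ret ρ r w R) {η : ℝ} (hη : 0 < η) :
    ∃ ε₀ > 0, ∃ δ > 0, ∀ ε, 0 < ε → ε ≤ ε₀ → ∀ x, ‖x‖ = 1 → ∀ s ∈ Icc (0 : ℝ) 2,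
      (∀ (I : Type) [Fintype I] (σ : I ≃ I) (p : I → Fb Z),
        (∀ i, p (σ i) = fs r B ξ gr ε s x (p i)) → ∀ i, p (σ i) = p i) ∧
      (∀ p, fs r B ξ gr ε s x p = p → ∀ a b, ‖a - p‖ ≤ δ → ‖b - p‖ ≤ δ →
        ‖(fs r B ξ gr ε s x a - a) - (fs r B ξ gr ε s x b - b)‖ ≤ η * ‖a - b‖) ∧
      ∀ p, fs r B ξ gr ε 2 x p = p ↔ p = zz x := by
  obtain ⟨e1, a1, k1⟩ := per ρ r w R H C
  obtain ⟨e2, a2, δ, a3, k2⟩ := lip ρ r w R H C η hη
  refine ⟨min e1 e2, lt_min a1 a2, δ, a3, fun ε e0 e x hx s hs => ?_⟩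
  rw [le_min_iff] at e
  have fx : ∀ s, ∀ hs : s ∈ Icc (0 : ℝ) 2, ∀ p, fs r B ξ gr ε s x p = p → _ := fun s hs p hp =>
    (k1 ε e0 e.1 Z _ _ _ (h.one_s hx hs) Unit (Equiv.refl _) (fun _ => p) (fun _ => hp.symm) ()).2
  refine ⟨fun I _ σ p hp i => (k1 ε e0 e.1 Z _ _ _ (h.one_s hx hs) I σ p hp i).1,
    fun p hp => k2 ε e0.le e.2 Z _ _ _ (h.one_s hx hs) p (fx s hs p hp).1 (fx s hs p hp).2,
    fun p => ⟨fun hp => ?_, fun hp => ?_⟩⟩
  · have k := fx 2 ⟨by norm_num, le_rfl⟩ p hp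
    have a : min (2 : ℝ) 1 = 1 := by norm_num
    have b : max ((2 : ℝ) - 1) 0 = 1 := by norm_num
    simp only [a, b, one_smul] at k
    exact (h.zu x p hx (k.2.trans_lt H.w0)).1 k.1
  · have z1 := h.zi x hx
    have z2 := (h.zu x (zz x) hx (z1.trans H.w0)).2 rfl
    have u := (h.one x 1 1 hx ⟨zero_le_one, le_rfl⟩ ⟨zero_le_one, le_rfl⟩ (Or.inr rfl)).un (zz x).snd
    rw [one_smul] at u
    rw [hp, fs_two, fm, z2, smul_zero, sub_zero]
    exact Fb.ext (H.fix _ _ u z1.le) rfl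

end Crest.Agent.N218.C
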