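import Mathlib

/-!
# Row 218, block C (helper7): functions with a prescribed 1-jet along a moving Lagrangian
-/

set_option autoImplicit false

open scoped ContDiff Topology Manifold
open Set Filter Metric Function

namespace Crest.Agent.N218.C

section
variable {E : Type*} [NormedAddCommGroup E] [NormedSpace ℝ E] [FiniteDimensional ℝ E]

/-- smooth local inverse -/
theorem loc_inv {f : E → E} {U : Set E} (hU : IsOpen U) (hf : ContDiffOn ℝ ∞ f U) {x₀ : E}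
    (hx : x₀ ∈ U) (hi : Injective (fderiv ℝ f x₀)) : ∃ (g : E → E) (O : Set E), IsOpen O ∧
      f x₀ ∈ O ∧ ContDiffOn ℝ ∞ g O ∧ (∀ᶠ x in 𝓝 x₀, g (f x) = x) ∧
      ∀ y ∈ O, g y ∈ U ∧ f (g y) = y := by
  have := FiniteDimensional.complete ℝ E
  have ha : ∀ x ∈ U, ContDiffAt ℝ ∞ f x := fun x h => hf.contDiffAt (hU.mem_nhds h)
  have hd : ∀ x ∈ U, HasFDerivAt f (fderiv ℝ f x) x := fun x h =>
    ((ha x h).differentiableAt (by simp)).hasFDerivAt
  set A : E ≃L[ℝ] E :=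
    (LinearEquiv.ofInjectiveEndo (fderiv ℝ f x₀ : E →ₗ[ℝ] E) hi).toContinuousLinearEquiv
  have hA : (A : E →L[ℝ] E) = fderiv ℝ f x₀ := rfl
  set e := (ha x₀ hx).toOpenPartialHomeomorph f (f' := A) (hA ▸ hd x₀ hx) (by simp)
  have he : (e : E → E) = f := rfl
  have hs : x₀ ∈ e.source := ContDiffAt.mem_toOpenPartialHomeomorph_source _ _ _
  have hV : IsOpen (U ∩ fderiv ℝ f ⁻¹' range ((↑) : (E ≃L[ℝ] E) → E →L[ℝ] E)) :=
    (hf.continuousOn_fderiv_of_isOpen hU (by simp)).isOpen_inter_preimage hU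
      ContinuousLinearEquiv.isOpen
  refine ⟨e.symm, _, e.isOpen_inter_preimage_symm hV, ⟨e.map_source hs, ?_⟩, fun y hy => ?_,
    e.eventually_left_inverse hs, fun y hy => ⟨hy.2.1, e.right_inv hy.1⟩⟩
  · rw [mem_preimage, ← he, e.left_inv hs]
    exact ⟨hx, A, hA⟩
  · obtain ⟨B, hB⟩ := hy.2.2
    exact (e.contDiffAt_symm hy.1 (f₀' := B) (hB ▸ hd _ hy.2.1) (ha _ hy.2.1)).contDiffWithinAt

/-- cut-off of a local function -/
theorem cut_off {φ : E → ℝ} {O : Set E} (hO : IsOpen O) (h : ContDiffOn ℝ ∞ φ O) {x₀ : E}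
    (hx : x₀ ∈ O) : ∃ Ω : E → ℝ, ContDiff ℝ ∞ Ω ∧ Ω =ᶠ[𝓝 x₀] φ ∧
      ∀ x, (x ∈ O → φ x = 0) → Ω x = 0 := by
  obtain ⟨χ, h0, h1, -⟩ := exists_contMDiffMap_zero_one_nhds_of_isClosed 𝓘(ℝ, E) (n := ⊤)
    hO.isClosed_compl (isClosed_singleton (x := x₀)) (by simpa using hx)
  refine ⟨fun x => χ x * φ x, contDiff_iff_contDiffAt.2 fun x => ?_, ?_, fun x hx => ?_⟩
  · by_cases k : x ∈ O
    · exact χ.contMDiff.contDiff.contDiffAt.mul (h.contDiffAt (hO.mem_nhds k))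
    · exact (contDiffAt_const (c := 0)).congr_of_eventuallyEq
        ((h0.filter_mono (nhds_le_nhdsSet k)).mono fun y hy => by simp [hy])
  · exact (h1.filter_mono (nhds_le_nhdsSet (mem_singleton x₀))).mono fun y hy => by simp [hy]
  · by_cases k : x ∈ O
    · simp [hx k]
    · simp [h0.self_of_nhdsSet x k]

end

variable {S V Z : Type} [NormedAddCommGroup S] [NormedSpace ℝ S] [FiniteDimensional ℝ S]
  [NormedAddCommGroup V] [NormedSpace ℝ V] [FiniteDimensional ℝ V]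
  [NormedAddCommGroup Z] [NormedSpace ℝ Z] [FiniteDimensional ℝ Z]
  {N K : Set V} {Λ : S × V → Z} {η : S × V → Z →L[ℝ] ℝ} {w : S × V → ℝ} {s₀ : S}

theorem jet_loc (hN : IsOpen N) (hΛ : ContDiffOn ℝ ∞ Λ (univ ×ˢ N))
    (hη : ContDiffOn ℝ ∞ η (univ ×ˢ N)) (hw : ContDiffOn ℝ ∞ w (univ ×ˢ N))
    (hd : ∀ s, ∀ l ∈ N, fderiv ℝ (fun l => w (s, l)) l =
      (η (s, l)).comp (fderiv ℝ (fun l => Λ (s, l)) l))
    (h0 : ∀ l ∈ N, w (s₀, l) = 0 ∧ η (s₀, l) = 0) {l₀ : V} (hl : l₀ ∈ N)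
    (hi : Injective (fderiv ℝ (fun l => Λ (s₀, l)) l₀)) :
    ∃ Ω : S × Z → ℝ, ContDiff ℝ ∞ Ω ∧ (∀ z, Ω (s₀, z) = 0) ∧ ∀ᶠ p in 𝓝 (s₀, l₀),
      Ω (p.1, Λ p) = w p ∧ HasFDerivAt (fun z => Ω (p.1, z)) (η p) (Λ p) := by
  have hU : IsOpen ((univ : Set S) ×ˢ N) := isOpen_univ.prod hN
  have df : ∀ {F : Type} [NormedAddCommGroup F] [NormedSpace ℝ F] {f : S × V → F},
      ContDiffOn ℝ ∞ f (univ ×ˢ N) → ∀ p : S × V, p.2 ∈ N → DifferentiableAt ℝ f p :=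
    fun hf p hp => (hf.contDiffAt (hU.mem_nhds ⟨trivial, hp⟩)).differentiableAt (by simp)
  obtain ⟨P₀, hP⟩ := LinearMap.exists_leftInverse_of_injective
    (fderiv ℝ (fun l => Λ (s₀, l)) l₀ : V →ₗ[ℝ] Z) (LinearMap.ker_eq_bot.2 hi)
  set P : Z →L[ℝ] V := LinearMap.toContinuousLinearMap P₀
  have d0 := (df hΛ (s₀, l₀) hl).hasFDerivAt
  obtain ⟨g, O, hO, hx, hg, hl', hr⟩ := loc_inv (f := fun p : S × V => (p.1, P (Λ p))) hU
    (contDiffOn_fst.prodMk (P.contDiff.comp_contDiffOn hΛ)) (x₀ := (s₀, l₀)) ⟨trivial, hl⟩ (by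
      have d1 : HasFDerivAt (fun p : S × V => (p.1, P (Λ p))) _ (s₀, l₀) :=
        hasFDerivAt_fst.prodMk (P.hasFDerivAt.comp _ d0)
      rw [d1.fderiv, injective_iff_map_eq_zero]
      rintro ⟨a, b⟩ h
      obtain ⟨rfl, h2⟩ : a = 0 ∧ P (fderiv ℝ Λ (s₀, l₀) (a, b)) = 0 := by simpa using h
      have := LinearMap.congr_fun hP b
      have d2 : HasFDerivAt (fun l => Λ (s₀, l)) _ l₀ := d0.comp l₀ (hasFDerivAt_prodMk_right s₀ l₀)
      rw [d2.fderiv] at this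
      exact Prod.ext rfl (this.symm.trans h2))
  set π : S × Z → S × V := fun q => g (q.1, P q.2) with hπ
  have cO : Continuous fun q : S × Z => (q.1, P q.2) := by fun_prop
  set O' := (fun q : S × Z => (q.1, P q.2)) ⁻¹' O
  have hO' : IsOpen O' := hO.preimage cO
  have sπ : ContDiffOn ℝ ∞ π O' := hg.comp (by fun_prop) fun _ h => h
  have mπ : MapsTo π O' (univ ×ˢ N) := fun q h => (hr _ h).1
  have fπ : ∀ q ∈ O', π q = (q.1, (π q).2) := fun q h => Prod.ext (congrArg Prod.fst (hr _ h).2 :) rfl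
  obtain ⟨Ω, sΩ, eΩ, zΩ⟩ := cut_off (φ := fun q => w (π q) + η (π q) (q.2 - Λ (π q))) hO'
    ((hw.comp sπ mπ).add ((hη.comp sπ mπ).clm_apply (contDiffOn_snd.sub (hΛ.comp sπ mπ))))
    (x₀ := (s₀, Λ (s₀, l₀))) hx
  refine ⟨Ω, sΩ, fun z => zΩ _ fun h => ?_, ?_⟩
  · have := h0 _ (mπ h).2
    rw [fπ _ h]
    simp [this]
  have ct : ContinuousAt (fun p : S × V => (p.1, Λ p)) (s₀, l₀) :=
    continuousAt_fst.prodMk d0.continuousAt
  filter_upwards [hl', ct.eventually eΩ.eventually_nhds, ct.eventually (hO'.mem_nhds hx),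
    hU.mem_nhds ⟨trivial, hl⟩] with ⟨s, l⟩ p1 p2 p3 p4
  have p5 : π (s, Λ (s, l)) = (s, l) := p1
  have c2 : ContinuousAt (fun z : Z => (s, z)) (Λ (s, l)) := by fun_prop
  refine ⟨by simpa [p5] using p2.self_of_nhds, ?_⟩
  have dQ : DifferentiableAt ℝ (fun z => (π (s, z)).2) (Λ (s, l)) :=
    (((sπ.contDiffAt (hO'.mem_nhds p3)).differentiableAt (by simp)).comp _ (by fun_prop)).snd
  have dl : ∀ {F : Type} [NormedAddCommGroup F] [NormedSpace ℝ F] {f : S × V → F},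
      ContDiffOn ℝ ∞ f (univ ×ˢ N) → HasFDerivAt (fun z => f (s, (π (s, z)).2))
        ((fderiv ℝ (fun l => f (s, l)) l).comp (fderiv ℝ (fun z => (π (s, z)).2) (Λ (s, l))))
        (Λ (s, l)) := fun {F} _ _ {f} hf => by
    refine HasFDerivAt.comp (g := fun l => f (s, l)) _ ?_ dQ.hasFDerivAt
    rw [p5]
    exact ((df hf (s, l) p4.2).comp l (by fun_prop)).hasFDerivAt
  have := (dl hw).add ((dl hη).clm_apply ((hasFDerivAt_id (Λ (s, l))).sub (dl hΛ)))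
  refine (this.congr_fderiv ?_).congr_of_eventuallyEq ?_
  · ext z
    simp [p5, hd s l p4.2]
  · filter_upwards [c2.eventually p2, c2.eventually (hO'.mem_nhds p3)] with z z1 z2
    rw [z1, fπ _ z2]
    rfl

/-- **jet extension** -/
theorem jet (hN : IsOpen N) (hK : IsCompact K) (hKN : K ⊆ N) (hΛ : ContDiffOn ℝ ∞ Λ (univ ×ˢ N))
    (hη : ContDiffOn ℝ ∞ η (univ ×ˢ N)) (hw : ContDiffOn ℝ ∞ w (univ ×ˢ N))
    (hd : ∀ s, ∀ l ∈ N, fderiv ℝ (fun l => w (s, l)) l =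
      (η (s, l)).comp (fderiv ℝ (fun l => Λ (s, l)) l))
    (h0 : ∀ l ∈ N, w (s₀, l) = 0 ∧ η (s₀, l) = 0) (hj : InjOn (fun l => Λ (s₀, l)) K)
    (hi : ∀ l ∈ K, Injective (fderiv ℝ (fun l => Λ (s₀, l)) l)) {ε : ℝ} (hε : 0 < ε) :
    ∀ᶠ s in 𝓝 s₀, ∃ W : Z → ℝ, ContDiff ℝ ∞ W ∧ HasCompactSupport W ∧
      (∀ z, ‖fderiv ℝ W z‖ ≤ ε ∧ ‖fderiv ℝ (fderiv ℝ W) z‖ ≤ ε) ∧
      ∀ l ∈ K, HasFDerivAt W (η (s, l)) (Λ (s, l)) := by
  have cΛ : ∀ l ∈ K, ContinuousAt Λ (s₀, l) := fun l h =>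
    hΛ.continuousOn.continuousAt ((isOpen_univ.prod hN).mem_nhds ⟨trivial, hKN h⟩)
  have c0 : ContinuousOn (fun l => Λ (s₀, l)) K := fun l h =>
    ((cΛ l h).comp (by fun_prop)).continuousWithinAt
  have hC := hK.image_of_continuousOn c0
  obtain ⟨Ω, sΩ, zΩ, O, hO, hCO, hJ⟩ := hC.induction_on (p := fun A => ∃ Ω : S × Z → ℝ,
      ContDiff ℝ ∞ Ω ∧ (∀ z, Ω (s₀, z) = 0) ∧ ∃ O, IsOpen O ∧ closure A ⊆ O ∧ ∀ᶠ s in 𝓝 s₀,
        ∀ l ∈ K, Λ (s, l) ∈ O → Ω (s, Λ (s, l)) = w (s, l) ∧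
          HasFDerivAt (fun z => Ω (s, z)) (η (s, l)) (Λ (s, l)))
    ⟨0, contDiff_const, fun _ => rfl, ∅, isOpen_empty, by simp, by simp⟩
    (fun A B h ⟨Ω, a, b, O, c, d, e⟩ => ⟨Ω, a, b, O, c, (closure_mono h).trans d, e⟩)
    (by
      rintro A B ⟨Ω, a, b, O, c, d, e⟩ ⟨Ω', a', b', O', c', d', e'⟩
      obtain ⟨χ, h0, h1, -⟩ := exists_contMDiffMap_zero_one_nhds_of_isClosed 𝓘(ℝ, Z) (n := ⊤)
        c.isClosed_compl (isClosed_closure (s := A)) (disjoint_compl_left_iff_subset.2 d)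
      have sχ : ContDiff ℝ ∞ χ := χ.contMDiff.contDiff
      refine ⟨fun q => χ q.2 * Ω q + (1 - χ q.2) * Ω' q, by fun_prop, fun z => by simp [b, b'],
        (O ∩ {z | ∀ᶠ y in 𝓝 z, χ y = 1}) ∪ O', (c.inter isOpen_setOfPred_eventually_nhds).union c', ?_,
        (e.and e').mono fun s hs l hl hz => ?_⟩
      · rw [closure_union]
        exact union_subset_union (fun z hz => ⟨d hz, h1.filter_mono (nhds_le_nhdsSet hz)⟩) d'
      rcases hz with hz | hz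
      · obtain ⟨u, v⟩ := hs.1 l hl hz.1
        exact ⟨by simp [hz.2.self_of_nhds, u], v.congr_of_eventuallyEq
          (hz.2.mono fun y hy => by simp [hy])⟩
      obtain ⟨u', v'⟩ := hs.2 l hl hz
      by_cases k : Λ (s, l) ∈ O
      · obtain ⟨u, v⟩ := hs.1 l hl k
        have dχ := (sχ.differentiable (by simp) (Λ (s, l))).hasFDerivAt
        refine ⟨by simp only [u, u']; ring,
          ((dχ.mul v).add ((dχ.const_sub 1).mul v')).congr_fderiv ?_⟩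
        ext z
        simp [u, u']
        ring
      · have := h0.filter_mono (nhds_le_nhdsSet k)
        exact ⟨by simp [this.self_of_nhds, u'], v'.congr_of_eventuallyEq
          (this.mono fun y hy => by simp [hy])⟩)
    (by
      rintro _ ⟨l₀, hl, rfl⟩
      obtain ⟨Ω, a, b, c⟩ := jet_loc hN hΛ hη hw hd h0 (hKN hl) (hi l₀ hl)
      obtain ⟨B, hB, B', hB', hc⟩ := mem_nhds_prod_iff.1 c
      have hC' := (hK.diff (isOpen_interior (s := B'))).image_of_continuousOn (c0.mono sdiff_subset)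
      obtain ⟨δ, hδ, hb⟩ := nhds_basis_closedBall.mem_iff.1 (hC'.isClosed.isOpen_compl.mem_nhds
        (x := Λ (s₀, l₀)) fun ⟨l, h1, h2⟩ => h1.2 (hj h1.1 hl h2 ▸ mem_interior_iff_mem_nhds.2 hB'))
      refine ⟨ball (Λ (s₀, l₀)) (δ / 2), mem_nhdsWithin_of_mem_nhds (ball_mem_nhds _ (half_pos hδ)),
        Ω, a, b, ball (Λ (s₀, l₀)) δ, isOpen_ball,
        closure_ball_subset_closedBall.trans (closedBall_subset_ball (half_lt_self hδ)),
        hK.eventually_forall_of_forall_eventually fun l hl' => ?_⟩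
      by_cases k : l ∈ interior B'
      · filter_upwards [prod_mem_nhds hB (mem_interior_iff_mem_nhds.1 k)] with p hp _ using hc hp
      · filter_upwards [(cΛ l hl').eventually (isClosed_closedBall.isOpen_compl.mem_nhds
          fun h => hb h ⟨l, ⟨hl', k⟩, rfl⟩)] with p hp h using (hp (ball_subset_closedBall h)).elim)
  obtain ⟨R, hR, hb⟩ := hC.isBounded.subset_ball_lt 0 0
  set χ : ContDiffBump (0 : Z) := ⟨R, R + 1, hR, by linarith⟩
  have sχ : ContDiff ℝ ∞ χ := χ.contDiff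
  set W : S → Z → ℝ := fun s z => χ z * Ω (s, z) with hW
  have s1 : ContDiff ℝ ∞ fun q : S × Z => fderiv ℝ (W q.1) q.2 :=
    ContDiff.fderiv (m := ∞) (f := fun q : S × Z => W q.1) (by simp only [hW]; fun_prop)
      contDiff_snd (by simp)
  have s2 : ContDiff ℝ ∞ fun q : S × Z => fderiv ℝ (fderiv ℝ (W q.1)) q.2 :=
    ContDiff.fderiv (m := ∞) (f := fun q : S × Z => fderiv ℝ (W q.1))
      (s1.comp (f := fun x : (S × Z) × Z => (x.1.1, x.2)) (by fun_prop)) contDiff_snd (by simp)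
  have n0 : ‖(0 : Z →L[ℝ] Z →L[ℝ] ℝ)‖ = 0 := ContinuousLinearMap.opNorm_zero
  have W0 : W s₀ = fun _ => 0 := funext fun z => by simp [hW, zΩ]
  have sm := χ.hasCompactSupport.isCompact.eventually_forall_of_forall_eventually (x₀ := s₀)
    (P := fun s z => ‖fderiv ℝ (W s) z‖ ≤ ε ∧ ‖fderiv ℝ (fderiv ℝ (W s)) z‖ ≤ ε) fun z _ =>
      by
      have c1 : Continuous fun q : S × Z => ‖fderiv ℝ (W q.1) q.2‖ := s1.continuous.norm
      have c2 : Continuous fun q : S × Z => ‖fderiv ℝ (fderiv ℝ (W q.1)) q.2‖ :=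
        (continuous_norm (E := Z →L[ℝ] Z →L[ℝ] ℝ)).comp s2.continuous
      exact (((c1.tendsto (s₀, z)).eventually (gt_mem_nhds (a := ε) (by simpa [W0] using hε))).and
        ((c2.tendsto (s₀, z)).eventually
          (gt_mem_nhds (a := ε) (by simpa [W0, n0] using hε)))).mono fun _ h => ⟨h.1.le, h.2.le⟩
  have nr := hK.eventually_forall_of_forall_eventually (x₀ := s₀)
    (P := fun s l => Λ (s, l) ∈ O ∩ ball 0 R) fun l hl => (cΛ l hl).eventually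
      ((hO.inter isOpen_ball).mem_nhds ⟨hCO (subset_closure ⟨l, hl, rfl⟩), hb ⟨l, hl, rfl⟩⟩)
  filter_upwards [hJ, sm, nr] with s h1 h2 h3
  refine ⟨W s, by simp only [hW]; fun_prop, χ.hasCompactSupport.mul_right, fun z => ?_,
    fun l hl => (h1 l hl (h3 l hl).1).2.congr_of_eventuallyEq ?_⟩
  · by_cases k : z ∈ tsupport χ
    · exact h2 z k
    · have e : W s =ᶠ[𝓝 z] fun _ => 0 :=
        (notMem_tsupport_iff_eventuallyEq.1 k).mono fun y hy => by simp [hW, hy]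
      simp [e.fderiv_eq, e.fderiv.fderiv_eq, hε.le, n0]
  · filter_upwards [χ.eventuallyEq_one_of_mem_ball (h3 l hl).2] with y hy
    simp [hW, hy]

end Crest.Agent.N218.C
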