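import Crest.Agent.N218.C.Defs

/-! Row 218, block (C) (helper69): closure properties of `Lp` and `Bd`. -/

set_option autoImplicit false
open scoped ContDiff NNReal
open Set

noncomputable section

namespace Crest.Agent.N218.C

variable {A B C : Type*} [NormedAddCommGroup A] [NormedSpace ℝ A] [NormedAddCommGroup B]
  [NormedSpace ℝ B] [NormedAddCommGroup C] [NormedSpace ℝ C]

theorem Lp.mk' {f : A → B} (hf : ContDiff ℝ ∞ f) {a b : ℝ≥0} (h1 : LipschitzWith a f)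
    (h2 : LipschitzWith b (fderiv ℝ f)) : Lp f :=
  ⟨hf, max a b, h1.weaken (le_max_left _ _), h2.weaken (le_max_right _ _)⟩

theorem Lp.smooth {f : A → B} (hf : Lp f) : ContDiff ℝ ∞ f := hf.1

theorem Lp.diff {f : A → B} (hf : Lp f) : Differentiable ℝ f := hf.1.differentiable (by simp)

/-- real-constant form -/
theorem Lp.bound {f : A → B} (hf : Lp f) : ∃ c : ℝ, 0 ≤ c ∧ (∀ x y, ‖f x - f y‖ ≤ c * ‖x - y‖) ∧
    (∀ x, ‖fderiv ℝ f x‖ ≤ c) ∧ ∀ x y, ‖fderiv ℝ f x - fderiv ℝ f y‖ ≤ c * ‖x - y‖ := by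
  obtain ⟨-, c, h1, h2⟩ := hf
  exact ⟨c, c.2, fun x y => h1.norm_sub_le x y, fun x => norm_fderiv_le_of_lipschitz ℝ h1,
    fun x y => h2.norm_sub_le x y⟩

theorem Lp.of_real {f : A → B} (hf : ContDiff ℝ ∞ f) {a b : ℝ} (h1 : ∀ x, ‖fderiv ℝ f x‖ ≤ a)
    (h2 : ∀ x y, ‖fderiv ℝ f x - fderiv ℝ f y‖ ≤ b * ‖x - y‖) : Lp f := by
  refine Lp.mk' hf (a := a.toNNReal) (b := b.toNNReal)
    (lipschitzWith_of_nnnorm_fderiv_le (hf.differentiable (by simp)) fun x => ?_)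
    (LipschitzWith.of_dist_le' fun x y => ?_)
  · exact NNReal.coe_le_coe.1 ((h1 x).trans (Real.le_coe_toNNReal a))
  · rw [dist_eq_norm, dist_eq_norm]; exact h2 x y

/-- from bounds on the first and second derivative -/
theorem Lp.of_d2 {f : A → B} (hf : ContDiff ℝ ∞ f) {a b : ℝ} (h1 : ∀ x, ‖fderiv ℝ f x‖ ≤ a)
    (h2 : ∀ x, ‖fderiv ℝ (fderiv ℝ f) x‖ ≤ b) : Lp f := by
  have hD : ContDiff ℝ ∞ (fderiv ℝ f) := hf.fderiv_right (m := ∞) (by simp)
  refine Lp.of_real hf h1 (b := b) fun x y => ?_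
  exact convex_univ.norm_image_sub_le_of_norm_fderiv_le
    (fun z _ => hD.differentiable (by simp) z) (fun z _ => h2 z) (mem_univ y) (mem_univ x)

theorem Lp.clm (L : A →L[ℝ] B) : Lp L :=
  Lp.of_real L.contDiff (a := ‖L‖) (b := 0) (fun x => by simp) fun x y => by simp

theorem Lp.const (b : B) : Lp fun _ : A => b :=
  Lp.of_real contDiff_const (a := 0) (b := 0) (fun x => by simp) fun x y => by simp

theorem Lp.id : Lp fun a : A => a := Lp.clm (ContinuousLinearMap.id ℝ A)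

theorem Lp.comp {g : B → C} {f : A → B} (hg : Lp g) (hf : Lp f) : Lp fun x => g (f x) := by
  obtain ⟨c, c0, -, g1, g2⟩ := hg.bound
  obtain ⟨d, d0, f0, f1, f2⟩ := hf.bound
  have e : ∀ x, fderiv ℝ (fun x => g (f x)) x = (fderiv ℝ g (f x)).comp (fderiv ℝ f x) := fun x =>
    fderiv_comp x (hg.diff _) (hf.diff _)
  refine Lp.of_real (hg.1.comp hf.1) (a := c * d) (b := c * d * d + c * d) (fun x => ?_)
    fun x y => ?_
  · rw [e]
    exact (ContinuousLinearMap.opNorm_comp_le _ _).trans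
      (mul_le_mul (g1 _) (f1 _) (norm_nonneg _) c0)
  · rw [e, e]
    have e2 : (fderiv ℝ g (f x)).comp (fderiv ℝ f x) - (fderiv ℝ g (f y)).comp (fderiv ℝ f y) =
        (fderiv ℝ g (f x) - fderiv ℝ g (f y)).comp (fderiv ℝ f x) +
          (fderiv ℝ g (f y)).comp (fderiv ℝ f x - fderiv ℝ f y) := by
      ext v; simp
    rw [e2]
    have k1 : ‖fderiv ℝ g (f x) - fderiv ℝ g (f y)‖ ≤ c * (d * ‖x - y‖) :=
      (g2 _ _).trans (mul_le_mul_of_nonneg_left (f0 _ _) c0)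
    have k2 := (ContinuousLinearMap.opNorm_comp_le (fderiv ℝ g (f x) - fderiv ℝ g (f y))
      (fderiv ℝ f x)).trans (mul_le_mul k1 (f1 x) (norm_nonneg _) (by positivity))
    have k3 := (ContinuousLinearMap.opNorm_comp_le (fderiv ℝ g (f y))
      (fderiv ℝ f x - fderiv ℝ f y)).trans (mul_le_mul (g1 _) (f2 x y) (norm_nonneg _) c0)
    refine (norm_add_le _ _).trans ?_
    nlinarith

theorem Lp.congr {f g : A → B} (hf : Lp f) (h : ∀ x, g x = f x) : Lp g := funext h ▸ hf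

theorem Lp.fst {f : A → B × C} (hf : Lp f) : Lp fun x => (f x).1 :=
  (Lp.clm (ContinuousLinearMap.fst ℝ B C)).comp hf

theorem Lp.snd {f : A → B × C} (hf : Lp f) : Lp fun x => (f x).2 :=
  (Lp.clm (ContinuousLinearMap.snd ℝ B C)).comp hf

theorem Lp.fst' : Lp fun x : A × B => x.1 := Lp.id.fst

theorem Lp.snd' : Lp fun x : A × B => x.2 := Lp.id.snd

theorem Lp.add {f g : A → B} (hf : Lp f) (hg : Lp g) : Lp fun x => f x + g x := by
  obtain ⟨c, c0, -, g1, g2⟩ := hg.bound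
  obtain ⟨d, d0, -, f1, f2⟩ := hf.bound
  have e : ∀ x, fderiv ℝ (fun x => f x + g x) x = fderiv ℝ f x + fderiv ℝ g x := fun x =>
    fderiv_fun_add (hf.diff _) (hg.diff _)
  refine Lp.of_real (hf.1.add hg.1) (a := d + c) (b := d + c) (fun x => ?_) fun x y => ?_
  · rw [e]; exact (norm_add_le _ _).trans (add_le_add (f1 x) (g1 x))
  · rw [e, e, add_sub_add_comm, add_mul]
    exact (norm_add_le _ _).trans (add_le_add (f2 x y) (g2 x y))

theorem Lp.neg {f : A → B} (hf : Lp f) : Lp fun x => -f x :=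
  (Lp.clm (-ContinuousLinearMap.id ℝ B)).comp hf

theorem Lp.sub {f g : A → B} (hf : Lp f) (hg : Lp g) : Lp fun x => f x - g x :=
  (hf.add hg.neg).congr fun _ => sub_eq_add_neg _ _

theorem Lp.smul (c : ℝ) {f : A → B} (hf : Lp f) : Lp fun x => c • f x :=
  (Lp.clm (c • ContinuousLinearMap.id ℝ B)).comp hf

theorem Lp.prodMk {f : A → B} {g : A → C} (hf : Lp f) (hg : Lp g) : Lp fun x => (f x, g x) :=
  (((Lp.clm (ContinuousLinearMap.inl ℝ B C)).comp hf).add
    ((Lp.clm (ContinuousLinearMap.inr ℝ B C)).comp hg)).congr fun _ => by simp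

theorem Bd.lp {f : A → B} (hf : Bd f) : Lp f := hf.1

theorem Bd.smooth {f : A → B} (hf : Bd f) : ContDiff ℝ ∞ f := hf.1.1

theorem Bd.congr {f g : A → B} (hf : Bd f) (h : ∀ x, g x = f x) : Bd g := funext h ▸ hf

theorem Bd.const (b : B) : Bd fun _ : A => b := ⟨Lp.const b, ‖b‖, fun _ => le_rfl⟩

/-- bounded after `Lp` -/
theorem Bd.comp {g : B → C} {f : A → B} (hg : Bd g) (hf : Lp f) : Bd fun x => g (f x) :=
  ⟨hg.1.comp hf, hg.2.imp fun _ h _ => h _⟩

/-- `Lp` after bounded -/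
theorem Lp.comp_bd {g : B → C} {f : A → B} (hg : Lp g) (hf : Bd f) : Bd fun x => g (f x) := by
  obtain ⟨c, c0, g0, -⟩ := hg.bound
  obtain ⟨d, hd⟩ := hf.2
  refine ⟨hg.comp hf.1, c * d + ‖g 0‖, fun x => ?_⟩
  have h1 := g0 (f x) 0
  rw [sub_zero] at h1
  have h2 := norm_le_norm_sub_add (g (f x)) (g 0)
  nlinarith [mul_le_mul_of_nonneg_left (hd x) c0]

theorem Bd.fst {f : A → B × C} (hf : Bd f) : Bd fun x => (f x).1 := Lp.fst'.comp_bd hf

theorem Bd.snd {f : A → B × C} (hf : Bd f) : Bd fun x => (f x).2 := Lp.snd'.comp_bd hf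

theorem Bd.prodMk {f : A → B} {g : A → C} (hf : Bd f) (hg : Bd g) : Bd fun x => (f x, g x) := by
  obtain ⟨c, hc⟩ := hf.2
  obtain ⟨d, hd⟩ := hg.2
  exact ⟨hf.1.prodMk hg.1, max c d, fun x => by
    rw [Prod.norm_def]; exact max_le_max (hc x) (hd x)⟩

theorem Bd.add {f g : A → B} (hf : Bd f) (hg : Bd g) : Bd fun x => f x + g x :=
  (Lp.fst'.add Lp.snd').comp_bd (hf.prodMk hg)

theorem Bd.sub {f g : A → B} (hf : Bd f) (hg : Bd g) : Bd fun x => f x - g x :=
  (Lp.fst'.sub Lp.snd').comp_bd (hf.prodMk hg)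

theorem Bd.neg {f : A → B} (hf : Bd f) : Bd fun x => -f x := Lp.id.neg.comp_bd hf

theorem Bd.smul (c : ℝ) {f : A → B} (hf : Bd f) : Bd fun x => c • f x := (Lp.id.smul c).comp_bd hf

theorem Bd.of_compact {f : A → B} (hf : ContDiff ℝ ∞ f) (hc : HasCompactSupport f) : Bd f := by
  have hD : ContDiff ℝ ∞ (fderiv ℝ f) := hf.fderiv_right (m := ∞) (by simp)
  obtain ⟨a, ha⟩ := hf.lipschitzWith_of_hasCompactSupport hc (by simp)
  obtain ⟨b, hb⟩ := hD.lipschitzWith_of_hasCompactSupport (hc.fderiv ℝ) (by simp)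
  exact ⟨Lp.mk' hf ha hb, hc.exists_bound_of_continuous hf.continuous⟩

/-- a bump that equals `1` on a given ball -/
theorem exists_bump (B : Type*) [NormedAddCommGroup B] [NormedSpace ℝ B] [FiniteDimensional ℝ B]
    (d : ℝ) : ∃ χ : B → ℝ, ContDiff ℝ ∞ χ ∧ HasCompactSupport χ ∧ ∀ b, ‖b‖ ≤ d → χ b = 1 := by
  let χ : ContDiffBump (0 : B) := ⟨|d| + 1, |d| + 2, by positivity, by linarith⟩
  exact ⟨χ, χ.contDiff, χ.hasCompactSupport, fun b hb => χ.one_of_mem_closedBall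
    (mem_closedBall_zero_iff.2 (by show ‖b‖ ≤ |d| + 1; linarith [le_abs_self d]))⟩

/-- any smooth function of a bounded map with finite-dimensional values -/
theorem Bd.smooth_comp [FiniteDimensional ℝ B] {g : B → C} {f : A → B} (hg : ContDiff ℝ ∞ g)
    (hf : Bd f) : Bd fun x => g (f x) := by
  obtain ⟨d, hd⟩ := hf.2
  obtain ⟨χ, h1, h2, h3⟩ := exists_bump B d
  exact ((Bd.of_compact (f := fun b => χ b • g b) (h1.smul hg) h2.smul_right).comp hf.1).congr
    fun x => by simp [h3 _ (hd x)]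

theorem Bd.mul {f g : A → ℝ} (hf : Bd f) (hg : Bd g) : Bd fun x => f x * g x :=
  Bd.smooth_comp (g := fun p : ℝ × ℝ => p.1 * p.2) (contDiff_fst.mul contDiff_snd) (hf.prodMk hg)

theorem Bd.smul' [FiniteDimensional ℝ B] {f : A → ℝ} {g : A → B} (hf : Bd f) (hg : Bd g) :
    Bd fun x => f x • g x :=
  Bd.smooth_comp (g := fun p : ℝ × B => p.1 • p.2) (contDiff_fst.smul contDiff_snd) (hf.prodMk hg)

/-- `G (b x, k x)` for `b` bounded, `k` only `Lp`, `G` vanishing for a large second argument -/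
theorem Bd.cut {D : Type*} [NormedAddCommGroup D] [NormedSpace ℝ D] [FiniteDimensional ℝ B]
    [FiniteDimensional ℝ C] {G : B × C → D} (hG : ContDiff ℝ ∞ G) {R : ℝ}
    (h0 : ∀ q y, R ≤ ‖y‖ → G (q, y) = 0) {b : A → B} {k : A → C} (hb : Bd b) (hk : Lp k) :
    Bd fun x => G (b x, k x) := by
  have : ProperSpace B := FiniteDimensional.proper ℝ B
  have : ProperSpace C := FiniteDimensional.proper ℝ C
  obtain ⟨d, hd⟩ := hb.2
  obtain ⟨χ, h1, h2, h3⟩ := exists_bump B d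
  have hc : HasCompactSupport fun p : B × C => χ p.1 • G p := by
    refine HasCompactSupport.intro (h2.isCompact.prod (isCompact_closedBall (0 : C) R))
      fun p hp => ?_
    by_cases h : p.1 ∈ tsupport χ
    · have : R ≤ ‖p.2‖ := le_of_not_ge fun h' => hp ⟨h, mem_closedBall_zero_iff.2 h'⟩
      rw [show G p = 0 from h0 p.1 p.2 this, smul_zero]
    · rw [image_eq_zero_of_notMem_tsupport h, zero_smul]
  exact ((Bd.of_compact ((h1.comp contDiff_fst).smul hG) hc).comp (hb.1.prodMk hk)).congr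
    fun x => by simp [h3 _ (hd x)]

/-- the form asked for in block (C) -/
theorem Bd.cut' {D : Type*} [NormedAddCommGroup D] [NormedSpace ℝ D] [FiniteDimensional ℝ B]
    [FiniteDimensional ℝ C] {G : B × C → D} (hG : ContDiff ℝ ∞ G) {R : ℝ}
    (h0 : ∀ q y, R ≤ ‖y‖ → G (q, y) = 0) {b : A → B} (hb : Bd b) :
    Bd fun p : A × C => G (b p.1, p.2) :=
  Bd.cut hG h0 (hb.comp Lp.fst') Lp.snd'

end Crest.Agent.N218.C
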