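import Mathlib

/-! # N218/C/Lya (helper80): the Lyapunov dichotomy -/

set_option autoImplicit false

open Set
open scoped InnerProductSpace

namespace Crest.Agent.N218.C

/-- no strict descent along a cycle -/
theorem cyc_eq {ι : Type*} [Fintype ι] (σ : ι ≃ ι) {a b : ι → ℝ} (hb : ∀ i, 0 ≤ b i)
    (h : ∀ i, a (σ i) ≤ a i - b i) (i : ι) : b i = 0 := by
  have h1 : ∑ i, a (σ i) ≤ ∑ i, (a i - b i) := Finset.sum_le_sum fun i _ => h i
  rw [σ.sum_comp, Finset.sum_sub_distrib] at h1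
  exact (Finset.sum_eq_zero_iff_of_nonneg fun i _ => hb i).1
    (le_antisymm (by linarith) (Finset.sum_nonneg fun i _ => hb i)) i (Finset.mem_univ i)

/-- **periodic orbits of `R ∘ E` are fixed by `E` and by `R`** -/
theorem lyap {X ι : Type*} [NormedAddCommGroup X] [Fintype ι] (σ : ι ≃ ι) {g ρ : X → ℝ}
    {E R : X → X} {D : Set X} {κ δ o : ℝ} (hκ : 0 < κ) (hδ : 0 ≤ δ) (ho : o < κ * δ ^ 2)
    (hD : ∀ w, R w ∈ D) (desc : ∀ z ∈ D, g (E z) ≤ g z - κ * ‖E z - z‖ ^ 2)
    (small : ∀ z ∈ D, ‖E z - z‖ ≤ δ → g (R (E z)) ≤ g (E z))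
    (big : ∀ z ∈ D, g (R (E z)) ≤ g (E z) + o)
    (prog : ∀ z ∈ D, E z = z → R z = z ∨ ρ (R z) < ρ z) {z : ι → X}
    (hz : ∀ i, z (σ i) = R (E (z i))) (i : ι) : E (z i) = z i ∧ R (z i) = z i ∧ z (σ i) = z i := by
  classical
  have m : ∀ i, z i ∈ D := fun i => by
    rw [← σ.apply_symm_apply i, hz]; exact hD _
  have e : ∀ i, E (z i) = z i := fun i => by
    have k := cyc_eq σ (a := fun i => g (z i))
      (b := fun i => if ‖E (z i) - z i‖ ≤ δ then κ * ‖E (z i) - z i‖ ^ 2 else κ * δ ^ 2 - o)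
      (fun i => by split_ifs; exacts [by positivity, by linarith]) (fun i => by
        have d := desc _ (m i)
        simp only [hz]
        split_ifs with c
        · linarith [small _ (m i) c]
        · have := mul_le_mul_of_nonneg_left (pow_le_pow_left₀ hδ (not_le.1 c).le 2) hκ.le
          linarith [big _ (m i)]) i
    split_ifs at k with c
    · exact sub_eq_zero.1 (norm_eq_zero.1 (pow_eq_zero_iff two_ne_zero |>.1
        ((mul_eq_zero.1 k).resolve_left hκ.ne')))
    · linarith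
  have r : R (z i) = z i := by
    have k := cyc_eq σ (a := fun i => ρ (z i)) (b := fun i => ρ (z i) - ρ (R (z i)))
      (fun i => (prog _ (m i) (e i)).elim (fun c => by rw [c, sub_self]) fun c => by linarith)
      (fun i => by simp only [hz, e]; linarith) i
    exact (prog _ (m i) (e i)).resolve_right fun c => by linarith
  exact ⟨e i, r, by rw [hz, e, r]⟩

/-- the descent lemma, normed form: `g (z + v) ≤ g z + g' z v + L / 2 * ‖v‖ ^ 2` -/
theorem taylor_le {X : Type*} [NormedAddCommGroup X] [NormedSpace ℝ X] {g : X → ℝ}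
    {g' : X → X →L[ℝ] ℝ} (hg : ∀ z, HasFDerivAt g (g' z) z) {L : ℝ} {z v : X}
    (hL : ∀ t ∈ Icc (0 : ℝ) 1, ‖g' (z + t • v) - g' z‖ ≤ L * (t * ‖v‖)) :
    g (z + v) ≤ g z + g' z v + L / 2 * ‖v‖ ^ 2 := by
  have d : ∀ t : ℝ, HasDerivAt (fun t : ℝ => g (z + t • v) - t * g' z v - L / 2 * ‖v‖ ^ 2 * t ^ 2)
      (g' (z + t • v) v - g' z v - L * ‖v‖ ^ 2 * t) t := fun t => by
    have a := (hg (z + t • v)).comp_hasDerivAt t (((hasDerivAt_id t).smul_const v).const_add z)
    refine ((a.sub ((hasDerivAt_id t).mul_const _)).sub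
      ((hasDerivAt_pow 2 t).const_mul _)).congr_deriv ?_
    simp; ring
  have := antitoneOn_of_deriv_nonpos (convex_Icc (0 : ℝ) 1)
    (fun t _ => (d t).continuousAt.continuousWithinAt)
    (fun t _ => (d t).differentiableAt.differentiableWithinAt) (fun t ht => by
      rw [(d t).deriv]
      have a := ((g' (z + t • v) - g' z).le_opNorm v).trans
        (mul_le_mul_of_nonneg_right (hL t (interior_subset ht)) (norm_nonneg v))
      rw [sub_apply, Real.norm_eq_abs] at a
      nlinarith [le_abs_self (g' (z + t • v) v - g' z v)])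
    (left_mem_Icc.2 zero_le_one) (right_mem_Icc.2 zero_le_one) zero_le_one
  simp only [one_smul, zero_smul, add_zero] at this
  linarith

/-- a gradient step decreases the function -/
theorem desc_grad {X : Type*} [NormedAddCommGroup X] [InnerProductSpace ℝ X] [CompleteSpace X]
    {g : X → ℝ} {gr : X → X} (hg : ∀ z, HasGradientAt g (gr z) z) {L ε : ℝ}
    (hL : ∀ z w, ‖gr z - gr w‖ ≤ L * ‖z - w‖) (h0 : 0 < ε) (h1 : ε * L ≤ 1) (z : X) :
    g (z - ε • gr z) ≤ g z - 1 / (2 * ε) * ‖z - ε • gr z - z‖ ^ 2 := by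
  have k := taylor_le (g' := fun z => InnerProductSpace.toDual ℝ X (gr z)) hg (L := L) (z := z)
    (v := -(ε • gr z)) fun t ht => by
      rw [← map_sub, LinearIsometryEquiv.norm_map]
      refine (hL _ _).trans_eq ?_
      rw [add_sub_cancel_left, norm_smul, Real.norm_of_nonneg ht.1]
  rw [InnerProductSpace.toDual_apply_apply, inner_neg_right, inner_smul_right,
    real_inner_self_eq_norm_sq, ← sub_eq_add_neg z] at k
  rw [sub_sub_cancel_left]
  rw [norm_neg, norm_smul, Real.norm_of_nonneg h0.le, mul_pow] at k ⊢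
  have e : 1 / (2 * ε) * (ε ^ 2 * ‖gr z‖ ^ 2) = ε / 2 * ‖gr z‖ ^ 2 := by field_simp
  have := mul_le_mul_of_nonneg_right h1 (show 0 ≤ ε / 2 * ‖gr z‖ ^ 2 by positivity)
  nlinarith

/-- real spectrum: a symmetric map has no anti-periodic orbit of even half period -/
theorem anti_eq_zero {X : Type*} [NormedAddCommGroup X] [InnerProductSpace ℝ X] {A : X →ₗ[ℝ] X}
    (hA : A.IsSymmetric) {c : ℝ} (hc : c ≠ 0) {y : ℕ → X} (hy : ∀ i, c • y (i + 1) = A (y i))
    {j : ℕ} (ha : y (j + j) = -y 0) : y 0 = 0 := by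
  have p : ∀ n, (A ^ n) (y 0) = c ^ n • y n := fun n => by
    induction n with
    | zero => simp
    | succ n ih => rw [pow_succ', Module.End.mul_apply, ih, map_smul, ← hy, smul_smul, pow_succ]
  have k : ⟪(A ^ (j + j)) (y 0), y 0⟫_ℝ = ‖(A ^ j) (y 0)‖ ^ 2 := by
    rw [pow_add, Module.End.mul_apply, hA.pow j, real_inner_self_eq_norm_sq]
  rw [p, ha, inner_smul_left, inner_neg_left, real_inner_self_eq_norm_sq, pow_add, ← sq] at k
  have h1 : 0 < (c ^ j) ^ 2 := by positivity
  have h2 : ‖y 0‖ ^ 2 ≤ 0 := by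
    by_contra h
    have := mul_pos h1 (not_le.1 h)
    simp only [conj_trivial] at k
    nlinarith [sq_nonneg ‖(A ^ j) (y 0)‖]
  exact norm_eq_zero.1 (pow_eq_zero_iff two_ne_zero |>.1 (le_antisymm h2 (sq_nonneg _)))

end Crest.Agent.N218.C
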