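import Crest.Agent.N218.C.Nn
import Crest.Agent.N218.C.Bl
import Crest.Agent.N218.C.Diag

/-! # N218/C/Next (helper48): the start and the step of the chain -/

set_option autoImplicit false

open Set Filter Topology Metric
open scoped ContDiff

noncomputable section

namespace Crest.Agent.N218.C

section
variable {A B : Type*} [NormedAddCommGroup A] [NormedSpace ℝ A] [NormedAddCommGroup B]
  [NormedSpace ℝ B]

theorem lp_iff {f : A → B} : Lp f ↔ BL f := by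
  refine ⟨fun ⟨s, C, a, b⟩ => ⟨s, C, C.2, fun x => norm_fderiv_le_of_lipschitz ℝ a,
    fun x y => b.norm_sub_le x y⟩, fun h => ?_⟩
  obtain ⟨C, c0, c1, c2⟩ := h.bd
  exact ⟨h.sm, ⟨C, c0⟩, lipschitzWith_of_nnnorm_fderiv_le (h.sm.differentiable (by simp))
    fun x => c1 x, lipschitzWith_iff_norm_sub_le.2 c2⟩

theorem bd_iff {f : A → B} : Bd f ↔ BL f ∧ Bv f := and_congr lp_iff Iff.rfl

end

theorem us_unit {q v : V} (h1 : ‖q.1‖ = 1) (h2 : ‖q.2‖ = 1) (hv : ‖v‖ ≤ 1 / 4) : q - v ∈ Us := by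
  have a := abs_le.1 ((abs_norm_sub_norm_le (q - v).1 q.1).trans
    (by simpa using (norm_fst_le v).trans hv : _ ≤ (1 / 4 : ℝ)))
  have b := abs_le.1 ((abs_norm_sub_norm_le (q - v).2 q.2).trans
    (by simpa using (norm_snd_le v).trans hv : _ ≤ (1 / 4 : ℝ)))
  exact ⟨⟨by linarith, by linarith⟩, by linarith, by linarith⟩

theorem shell_nhds {a b : ℝ} (ha : a < 1) (hb : 1 < b) (q : V) (h1 : ‖q.1‖ = 1) (h2 : ‖q.2‖ = 1) :
    {q : V | (a < ‖q.1‖ ∧ ‖q.1‖ < b) ∧ (a < ‖q.2‖ ∧ ‖q.2‖ < b)} ∈ 𝓝 q :=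
  (((isOpen_lt continuous_const continuous_fst.norm).inter
    (isOpen_lt continuous_fst.norm continuous_const)).inter
    ((isOpen_lt continuous_const continuous_snd.norm).inter
      (isOpen_lt continuous_snd.norm continuous_const))).mem_nhds
    ⟨⟨ha.trans_eq h1.symm, h1.trans_lt hb⟩, ha.trans_eq h2.symm, h2.trans_lt hb⟩

theorem base_of (hN : NNC) (hb : Bd nn) (hu : ∀ q ∈ Us, ‖(nn q).1‖ = 1 ∧ ‖(nn q).2‖ = 1)
    (hn : ∀ q ∈ Us, nn (nn q) = nn q) : BASE := by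
  intro G0 D0 L hL h
  obtain ⟨n1, n2⟩ := bd_iff.1 hb
  refine ⟨PUnit, inferInstance, inferInstance, inferInstance, 0, fun x => nn x.1, fun _ => 0,
    fun _ _ => rfl, fun _ _ => rfl, bd_iff.2 ⟨n1.comp BL.id.fst, n2.comp _⟩,
    bd_iff.2 ⟨.const 0, 0, by simp⟩, fun q hq _ => ?_, hn, ?_⟩
  · simpa using us_unit (v := 0) (hu q hq).1 (hu q hq).2 (by simp)
  · have := (hN Y G0 D0 Us L hL (shell_nhds (by norm_num) (by norm_num)) h).eqv
      (ContinuousLinearEquiv.prodUnique ℝ Y PUnit)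
    refine (congrArg (fun G => Gen G _ Us (Lc L)) (funext fun x => ?_)).mp this
    simp

theorem next_of (hN : NNC) (hb : Bd nn) (hu : ∀ q ∈ Us, ‖(nn q).1‖ = 1 ∧ ‖(nn q).2‖ = 1)
    (hn : ∀ q ∈ Us, nn (nn q) = nn q) : NEXT := by
  rintro G0 D0 L L' hL ⟨W, w0, w1, w2, w3, w4, w5⟩ ⟨Z, _, _, _, β, b, η, c⟩
  obtain ⟨n1, -⟩ := bd_iff.1 hb
  obtain ⟨b1, b2⟩ := bd_iff.1 c.bb
  obtain ⟨e1, e2⟩ := bd_iff.1 c.be
  let φ : ContDiffBump (0 : V) := ⟨3 / 16, 1 / 4, by norm_num, by norm_num⟩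
  set χ : V → V := fun v => φ v • v with hχ
  have χs : ContDiff ℝ ∞ χ := φ.contDiff.smul contDiff_id
  have χb : BL χ := .of_cpt χs φ.hasCompactSupport.smul_right
  have χ1 : ∀ v, ‖v‖ < 3 / 16 → χ v = v := fun v h => by
    simp only [hχ, φ.one_of_mem_closedBall (mem_closedBall_zero_iff.2 h.le), one_smul]
  have χ2 : ∀ v, ‖χ v‖ ≤ 1 / 4 := fun v => by
    simp only [hχ, norm_smul, Real.norm_eq_abs, abs_of_nonneg φ.nonneg]
    rcases le_total ‖v‖ (1 / 4) with h | h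
    · nlinarith [φ.le_one (x := v), norm_nonneg v, φ.nonneg (x := v)]
    · rw [φ.zero_of_le_dist (by rw [dist_zero_right]; exact h)]; norm_num
  have nU : ∀ q ∈ Us, ∀ v, nn q - χ v ∈ Us := fun q hq v => us_unit (hu q hq).1 (hu q hq).2 (χ2 v)
  have g0 := c.gen.step (U' := {q : V | (3 / 4 < ‖q.1‖ ∧ ‖q.1‖ < 5 / 4) ∧
      (3 / 4 < ‖q.2‖ ∧ ‖q.2‖ < 5 / 4)}) χs w0 (by norm_num) (by norm_num) χ1 w2 w3
    (fun Q hQ v hv => by
      have a := abs_le.1 ((abs_norm_sub_norm_le (Q - v).1 Q.1).trans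
        (by simpa using (norm_fst_le v).trans hv : _ ≤ (1 / 8 : ℝ)))
      have b := abs_le.1 ((abs_norm_sub_norm_le (Q - v).2 Q.2).trans
        (by simpa using (norm_snd_le v).trans hv : _ ≤ (1 / 8 : ℝ)))
      obtain ⟨⟨h1, h2⟩, h3, h4⟩ := hQ
      exact ⟨⟨by linarith, by linarith⟩, by linarith, by linarith⟩) w4
    fun z' h ⟨⟨h1, h2⟩, h3, h4⟩ =>
      w5 z' h ⟨⟨by linarith, by linarith⟩, by linarith, by linarith⟩
  have g1 := (hN _ _ _ _ L' hL (shell_nhds (by norm_num) (by norm_num)) g0).eqv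
    (ContinuousLinearEquiv.prodAssoc ℝ Y Z (V × Vd)).symm
  have t : BL fun x : V × Z × V × Vd => (nn x.1 - χ x.2.2.1, x.2.1) :=
    ((n1.comp BL.id.fst).sub (χb.comp BL.id.snd.snd.fst)).prodMk BL.id.snd.fst
  refine ⟨Z × V × Vd, inferInstance, inferInstance, inferInstance, hyp V β,
    fun x => b (nn x.1 - χ x.2.2.1, x.2.1),
    fun x => η (nn x.1 - χ x.2.2.1, x.2.1) + W (nn x.1, x.2.2.2), hyp_symm c.sy, hyp_nd c.nd,
    bd_iff.2 ⟨b1.comp t, b2.comp _⟩,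
    bd_iff.2 ⟨(e1.comp t).add ((BL.of_d2 w0 (by norm_num) (by norm_num) w2 w3).comp
      ((n1.comp BL.id.fst).prodMk BL.id.snd.snd.snd)),
      (e2.comp _).add ((Bv.of_cpt w0.continuous w1).comp _)⟩,
    fun q hq z => c.bU _ (nU q hq _) _, fun q hq => ?_, ?_⟩
  · have := nU q hq 0
    simp only [Prod.snd_zero, Prod.fst_zero, χ1 0 (by simp), sub_zero] at this ⊢
    rw [c.b0 _ this, hn q hq]
  · refine (congrArg (fun G => Gen G _ Us (Lc L')) (funext fun x => ?_)).mp g1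
    show G0 (b (nn x.1 - χ x.2.2.2.1, x.2.2.1), x.2.1) + 1 / 2 * β x.2.2.1 x.2.2.1 +
      η (nn x.1 - χ x.2.2.2.1, x.2.2.1) + x.2.2.2.2 x.2.2.2.1 + W (nn x.1, x.2.2.2.2) = _
    rw [hyp_apply]
    ring

theorem base : BASE := base_of nnc nn_bd (fun _ h => nn_norm h) fun _ h => nn_nn h

theorem next : NEXT := next_of nnc nn_bd (fun _ h => nn_norm h) fun _ h => nn_nn h

end Crest.Agent.N218.C

end
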