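import Crest.Agent.N218.C.Defs
import Crest.Agent.N218.C.Jet

/-! Row 218, block (C): nearby members of an isotopy are related by a small function. -/

set_option autoImplicit false
open scoped ContDiff Topology
open Set Filter ContinuousLinearMap

namespace Crest.Agent.N218.C

theorem stp_gen {A P : Type} [NormedAddCommGroup A] [NormedSpace ℝ A] [FiniteDimensional ℝ A]
    [NormedAddCommGroup P] [NormedSpace ℝ P] [FiniteDimensional ℝ P] (β : P →L[ℝ] A →L[ℝ] ℝ)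
    {N K : Set A} (hN : IsOpen N) (hK : IsCompact K) (hKN : K ⊆ N) {a : ℝ × A → A}
    {p : ℝ × A → P} {h : ℝ × A → ℝ} (sa : ContDiffOn ℝ ∞ a (univ ×ˢ N))
    (sp : ContDiffOn ℝ ∞ p (univ ×ˢ N)) (sh : ContDiffOn ℝ ∞ h (univ ×ˢ N)) (s₀ : ℝ)
    (inj : InjOn (fun l => (a (s₀, l), p (s₀, l))) N)
    (imm : ∀ l ∈ N, ∀ v, fderiv ℝ (fun l => a (s₀, l)) l v = 0 →
      fderiv ℝ (fun l => p (s₀, l)) l v = 0 → v = 0)
    (ex : ∀ s, ∀ l ∈ N, ∀ v,
      fderiv ℝ (fun l => h (s, l)) l v = β (p (s, l)) (fderiv ℝ (fun l => a (s, l)) l v)) :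
    ∀ᶠ σ : ℝ × ℝ in 𝓝 (s₀, s₀), ∃ W : A × P → ℝ, ContDiff ℝ ∞ W ∧ HasCompactSupport W ∧
      (∀ z a, ‖fderiv ℝ W z a‖ ≤ 1 / 8 * ‖a‖) ∧
      (∀ z a b, ‖fderiv ℝ (fderiv ℝ W) z a b‖ ≤ 1 / 2 * ‖a‖ * ‖b‖) ∧
      ∀ l ∈ K, ∀ w π, fderiv ℝ W (a (σ.2, l), p (σ.1, l)) (w, π) =
        β (p (σ.2, l) - p (σ.1, l)) w + β π (a (σ.1, l) - a (σ.2, l)) := by
  have m1 : ContDiffOn ℝ ∞ (fun x : (ℝ × ℝ) × A => (x.1.1, x.2)) (univ ×ˢ N) := by fun_prop
  have m2 : ContDiffOn ℝ ∞ (fun x : (ℝ × ℝ) × A => (x.1.2, x.2)) (univ ×ˢ N) := by fun_prop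
  have t1 : MapsTo (fun x : (ℝ × ℝ) × A => (x.1.1, x.2)) (univ ×ˢ N) (univ ×ˢ N) :=
    fun x hx => ⟨trivial, hx.2⟩
  have t2 : MapsTo (fun x : (ℝ × ℝ) × A => (x.1.2, x.2)) (univ ×ˢ N) (univ ×ˢ N) :=
    fun x hx => ⟨trivial, hx.2⟩
  have a1 := sa.comp m1 t1
  have a2 := sa.comp m2 t2
  have p1 := sp.comp m1 t1
  have p2 := sp.comp m2 t2
  have df : ∀ {B : Type} [NormedAddCommGroup B] [NormedSpace ℝ B] {f : ℝ × A → B},
      ContDiffOn ℝ ∞ f (univ ×ˢ N) → ∀ s, ∀ l ∈ N,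
      HasFDerivAt (fun l => f (s, l)) (fderiv ℝ (fun l => f (s, l)) l) l := fun hf s l hl =>
    (((hf.contDiffAt ((isOpen_univ.prod hN).mem_nhds ⟨trivial, hl⟩)).comp l
      (contDiffAt_const.prodMk contDiffAt_id)).differentiableAt (by simp)).hasFDerivAt
  have k := jet (S := ℝ × ℝ) (s₀ := (s₀, s₀)) (Λ := fun x => (a (x.1.2, x.2), p (x.1.1, x.2)))
    (η := fun x => (β (p (x.1.2, x.2) - p (x.1.1, x.2))).comp (fst ℝ A P) +
      (β.flip (a (x.1.1, x.2) - a (x.1.2, x.2))).comp (snd ℝ A P))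
    (w := fun x => h (x.1.2, x.2) - h (x.1.1, x.2) +
      β (p (x.1.1, x.2)) (a (x.1.1, x.2) - a (x.1.2, x.2))) hN hK hKN (a2.prodMk p1)
    (((β.contDiff.comp_contDiffOn (p2.sub p1)).clm_comp contDiffOn_const).add
      ((β.flip.contDiff.comp_contDiffOn (a1.sub a2)).clm_comp contDiffOn_const))
    (((sh.comp m2 t2).sub (sh.comp m1 t1)).add
      ((β.contDiff.comp_contDiffOn p1).clm_apply (a1.sub a2)))
    (fun s l hl => by
      have e1 := (((df sh s.2 l hl).sub (df sh s.1 l hl)).add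
        ((β.hasFDerivAt.comp l (df sp s.1 l hl)).clm_apply
          ((df sa s.1 l hl).sub (df sa s.2 l hl)))).fderiv
      have e2 := ((df sa s.2 l hl).prodMk (df sp s.1 l hl)).fderiv
      refine e1.trans ?_
      rw [e2]
      ext v
      simp [ex _ l hl]
      ring)
    (fun l _ => by simp) (inj.mono hKN)
    (fun l hl => by
      have e2 := ((df sa s₀ l (hKN hl)).prodMk (df sp s₀ l (hKN hl))).fderiv
      refine (injective_iff_map_eq_zero _).2 fun v hv => ?_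
      rw [e2] at hv
      exact imm l (hKN hl) v (congrArg Prod.fst hv) (congrArg Prod.snd hv))
    (show (0 : ℝ) < 1 / 8 by norm_num)
  filter_upwards [k] with σ ⟨W, w1, w2, w3, w4⟩
  refine ⟨W, w1, w2, d1_le fun z => (w3 z).1, d2_le fun z => (w3 z).2.trans (by norm_num),
    fun l hl w π => ?_⟩
  rw [(w4 l hl).fderiv]
  simp

theorem near : STP := by
  intro Ls a p h c s₀
  have hN : IsOpen Nz := (isOpen_ne_fun continuous_fst continuous_const).inter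
    (isOpen_ne_fun continuous_snd continuous_const)
  let K : Set V := {q | (1 / 2 ≤ ‖q.1‖ ∧ ‖q.1‖ ≤ 2) ∧ (1 / 2 ≤ ‖q.2‖ ∧ ‖q.2‖ ≤ 2)}
  have hK : IsCompact K := by
    refine (isCompact_closedBall (0 : V) 2).of_isClosed_subset ?_ fun q hq => ?_
    · exact ((isClosed_le continuous_const continuous_fst.norm).inter
        (isClosed_le continuous_fst.norm continuous_const)).inter
        ((isClosed_le continuous_const continuous_snd.norm).inter
        (isClosed_le continuous_snd.norm continuous_const))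
    · rw [mem_closedBall_zero_iff, Prod.norm_def]; exact max_le hq.1.2 hq.2.2
  have hKN : K ⊆ Nz := fun q hq => ⟨norm_pos_iff.1 (by linarith [hq.1.1]),
    norm_pos_iff.1 (by linarith [hq.2.1])⟩
  have hU : ∀ s, ∀ l ∈ Nz, a (s, l) ∈ Us → l ∈ K := fun s l hl u => by
    obtain ⟨e1, e2⟩ := c.nr s l hl
    obtain ⟨⟨u1, u2⟩, u3, u4⟩ := u
    exact ⟨⟨by linarith, by linarith⟩, by linarith, by linarith⟩
  filter_upwards [stp_gen (ContinuousLinearMap.id ℝ Vd) hN hK hKN c.sa c.sp c.sh s₀ (c.inj s₀)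
    (c.imm s₀) c.ex] with σ ⟨W, w1, w2, w3, w4, w5⟩
  refine ⟨W, w1, w2, w3, w4, fun z hz u => ?_, fun z hz u => ?_⟩
  · rw [c.im] at hz
    obtain ⟨l, hl, rfl⟩ := hz
    exact ⟨(a (σ.2, l), p (σ.2, l)), by rw [c.im]; exact ⟨l, hl, rfl⟩, w5 l (hU _ l hl u)⟩
  · rw [c.im] at hz
    obtain ⟨l, hl, rfl⟩ := hz
    exact ⟨(a (σ.1, l), p (σ.1, l)), by rw [c.im]; exact ⟨l, hl, rfl⟩, w5 l (hU _ l hl u)⟩

end Crest.Agent.N218.C
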