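import Crest.Agent.N218.C.Defs
import Crest.Agent.N218.A.ToC0

/-!
# Row 218 (helper86): the normalisations `nv`, `nn`; the cone step `NNC`; change of fibre
-/

set_option autoImplicit false
open Set Filter Topology ContinuousLinearMap
open scoped ContDiff RealInnerProductSpace
open Crest.GeometryTopology.CotangentSpheres

noncomputable section

namespace Crest.Agent.N218.C

open A.Tc

theorem ph_smooth : ContDiff ℝ ∞ ph := by
  refine contDiff_iff_contDiffAt.2 fun t => ?_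
  rcases lt_or_ge t (1 / 16) with h | h
  · refine (contDiffAt_const (c := (0 : ℝ))).congr_of_eventuallyEq ?_
    filter_upwards [Iio_mem_nhds h] with s hs
    have : s < 1 / 16 := hs
    rw [ph, Real.smoothTransition.zero_of_nonpos (by linarith), zero_mul, zero_mul]
  · have t0 : 0 < t := by linarith
    exact ((Real.smoothTransition.contDiff.comp (by fun_prop)).mul
      (Real.smoothTransition.contDiff.comp (by fun_prop))).contDiffAt.mul
      ((Real.contDiffAt_sqrt t0.ne').inv (Real.sqrt_pos.2 t0).ne')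

theorem ph_eq {t : ℝ} (h : 1 / 8 ≤ t) (h' : t ≤ 4) : ph t = (√t)⁻¹ := by
  rw [ph, Real.smoothTransition.one_of_one_le (by linarith),
    Real.smoothTransition.one_of_one_le (by linarith), one_mul, one_mul]

theorem ph_zero {t : ℝ} (h : 5 ≤ t) : ph t = 0 := by
  rw [ph, Real.smoothTransition.zero_of_nonpos (x := 5 - t) (by linarith), mul_zero, zero_mul]

section
variable {E : Type*} [NormedAddCommGroup E] [InnerProductSpace ℝ E]

theorem nv_smooth : ContDiff ℝ ∞ (nv : E → E) :=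
  (ph_smooth.comp (contDiff_norm_sq ℝ)).smul contDiff_id

theorem nv_eq {a : E} (h : 1 / 2 ≤ ‖a‖) (h' : ‖a‖ ≤ 2) : nv a = ‖a‖⁻¹ • a := by
  rw [nv, ph_eq (by nlinarith) (by nlinarith), Real.sqrt_sq (norm_nonneg _)]

theorem nv_norm {a : E} (h : 1 / 2 ≤ ‖a‖) (h' : ‖a‖ ≤ 2) : ‖nv a‖ = 1 := by
  rw [nv_eq h h', nrm_one (norm_pos_iff.1 (by linarith))]

theorem nv_unit {a : E} (h : ‖a‖ = 1) : nv a = a := by
  rw [nv_eq (by linarith) (by linarith), h, inv_one, one_smul]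

theorem nv_nv {a : E} (h : 1 / 2 ≤ ‖a‖) (h' : ‖a‖ ≤ 2) : nv (nv a) = nv a := nv_unit (nv_norm h h')

theorem nv_zero {a : E} (h : 3 ≤ ‖a‖) : nv a = 0 := by
  rw [nv, ph_zero (by nlinarith), zero_smul]

theorem nv_norm_le (a : E) : ‖nv a‖ ≤ 1 := by
  rcases eq_or_ne a 0 with rfl | h
  · simp [nv]
  have n0 : 0 < ‖a‖ := norm_pos_iff.2 h
  have i := Real.smoothTransition.nonneg (16 * ‖a‖ ^ 2 - 1)
  have j := Real.smoothTransition.nonneg (5 - ‖a‖ ^ 2)
  rw [nv, ph, Real.sqrt_sq n0.le, norm_smul, Real.norm_of_nonneg (by positivity), mul_assoc,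
    inv_mul_cancel₀ n0.ne', mul_one]
  exact mul_le_one₀ (Real.smoothTransition.le_one _) j (Real.smoothTransition.le_one _)

theorem nv_cs [FiniteDimensional ℝ E] : HasCompactSupport (nv : E → E) :=
  HasCompactSupport.intro (isCompact_closedBall 0 3) fun _ h =>
    nv_zero (not_le.1 fun k => h (mem_closedBall_zero_iff.2 k)).le

theorem nv_bd [FiniteDimensional ℝ E] : Bd (nv : E → E) := by
  obtain ⟨a, ha⟩ := (nv_smooth (E := E)).lipschitzWith_of_hasCompactSupport nv_cs (by simp)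
  have s : ContDiff ℝ 1 (fderiv ℝ (nv : E → E)) := nv_smooth.fderiv_right (by norm_cast)
  have c : HasCompactSupport (fderiv ℝ (nv : E → E)) := nv_cs.fderiv ℝ
  obtain ⟨b, hb⟩ := s.lipschitzWith_of_hasCompactSupport c one_ne_zero
  exact ⟨⟨nv_smooth, max a b, ha.weaken (le_max_left _ _), hb.weaken (le_max_right _ _)⟩,
    1, nv_norm_le⟩
end

theorem nn_smooth : ContDiff ℝ ∞ nn :=
  (nv_smooth.comp contDiff_fst).prodMk (nv_smooth.comp contDiff_snd)

theorem isOpen_Us : IsOpen Us :=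
  (isOpen_Ioo.preimage (continuous_fst.norm : Continuous fun q : V => ‖q.1‖)).inter
    (isOpen_Ioo.preimage (continuous_snd.norm : Continuous fun q : V => ‖q.2‖))

theorem unit_mem_Us {q : V} (h1 : ‖q.1‖ = 1) (h2 : ‖q.2‖ = 1) : q ∈ Us := by
  refine ⟨⟨?_, ?_⟩, ?_, ?_⟩ <;> linarith

theorem Us_sub_Nz : Us ⊆ Nz := fun _ h =>
  ⟨norm_pos_iff.1 (by linarith [h.1.1]), norm_pos_iff.1 (by linarith [h.2.1])⟩

theorem nn_eq {q : V} (h : q ∈ Us) : nn q = (‖q.1‖⁻¹ • q.1, ‖q.2‖⁻¹ • q.2) :=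
  Prod.ext (nv_eq h.1.1.le h.1.2.le) (nv_eq h.2.1.le h.2.2.le)

theorem nn_nr {q : V} (h : q ∈ Us) : Nr nn q :=
  ⟨(Us_sub_Nz h).1, (Us_sub_Nz h).2, mem_of_superset (isOpen_Us.mem_nhds h) fun _ k => nn_eq k⟩

theorem nn_norm {q : V} (h : q ∈ Us) : ‖(nn q).1‖ = 1 ∧ ‖(nn q).2‖ = 1 := (nn_nr h).unit

theorem nn_mem {q : V} (h : q ∈ Us) : nn q ∈ Us := unit_mem_Us (nn_norm h).1 (nn_norm h).2

theorem nn_unit {q : V} (h1 : ‖q.1‖ = 1) (h2 : ‖q.2‖ = 1) : nn q = q :=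
  Prod.ext (nv_unit h1) (nv_unit h2)

theorem nn_nn {q : V} (h : q ∈ Us) : nn (nn q) = nn q := nn_unit (nn_norm h).1 (nn_norm h).2

theorem nn_norm_le (q : V) : ‖nn q‖ ≤ 1 := max_le (nv_norm_le _) (nv_norm_le _)

theorem nn_bd : Bd nn := by
  obtain ⟨⟨-, a, a1, a2⟩, -⟩ := nv_bd (E := Y)
  obtain ⟨⟨-, b, b1, b2⟩, -⟩ := nv_bd (E := X)
  have d : ∀ q : V, fderiv ℝ nn q = (fderiv ℝ nv q.1).prodMap (fderiv ℝ nv q.2) := fun q =>
    ((nv_smooth.differentiable (by simp) q.1).hasFDerivAt.prodMap q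
      (nv_smooth.differentiable (by simp) q.2).hasFDerivAt).fderiv
  refine ⟨⟨nn_smooth, max a b, ?_, LipschitzWith.of_dist_le_mul fun q q' => ?_⟩, 1, nn_norm_le⟩
  · have := (a1.comp (LipschitzWith.prod_fst (β := X))).prodMk
      (b1.comp (LipschitzWith.prod_snd (α := Y)))
    rw [mul_one, mul_one] at this
    exact this
  rw [d, d, dist_eq_norm, dist_eq_norm]
  refine opNorm_le_bound _ (by positivity) fun w => max_le ?_ ?_
  · refine (le_of_opNorm_le _ (a2.norm_sub_le q.1 q'.1) w.1).trans ?_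
    gcongr
    exacts [NNReal.coe_le_coe.2 (le_max_left _ _), norm_fst_le (q - q'), norm_fst_le w]
  · refine (le_of_opNorm_le _ (b2.norm_sub_le q.2 q'.2) w.2).trans ?_
    gcongr
    exacts [NNReal.coe_le_coe.2 (le_max_right _ _), norm_snd_le (q - q'), norm_snd_le w]

/-- the fibre of the cone over a point of the shell -/
theorem mem_Lc {L : Set (Amb 11)} (hL : ∀ a ∈ L, InCotangent 11 a) {q : V} (h : q ∈ Nz) (P : Vd) :
    (q, P) ∈ Lc L ↔ ∃ p, ((‖q.1‖⁻¹ • q.1, ‖q.2‖⁻¹ • q.2), p) ∈ L ∧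
      ∀ w : V, P w = ‖q.1‖⁻¹ * ⟪p.1, w.1⟫ + ‖q.2‖⁻¹ * ⟪p.2, w.2⟫ := by
  have n1 := norm_pos_iff.2 h.1
  have n2 := norm_pos_iff.2 h.2
  constructor
  · rintro ⟨a, i, s, t, hs, ht, e, k⟩
    obtain rfl : q = _ := e
    have j := hL a i
    have e1 : ‖s • a.1.1‖ = s := by rw [norm_smul, j.1, mul_one, Real.norm_of_nonneg hs.le]
    have e2 : ‖t • a.1.2‖ = t := by rw [norm_smul, j.2.1, mul_one, Real.norm_of_nonneg ht.le]
    refine ⟨a.2, ?_, by simpa only [e1, e2] using k⟩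
    simpa only [e1, e2, smul_smul, inv_mul_cancel₀ hs.ne', inv_mul_cancel₀ ht.ne', one_smul] using i
  · rintro ⟨p, i, k⟩
    refine ⟨_, i, _, _, n1, n2, ?_, k⟩
    simp only [smul_smul, mul_inv_cancel₀ n1.ne', mul_inv_cancel₀ n2.ne', one_smul]

theorem mem_Lc' {L : Set (Amb 11)} (hL : ∀ a ∈ L, InCotangent 11 a) {q : V} (h : q ∈ Us) (P : Vd) :
    (q, P) ∈ Lc L ↔ ∃ p, (nn q, p) ∈ L ∧
      ∀ w, P w = ⟪p.1, (fderiv ℝ nn q w).1⟫ + ⟪p.2, (fderiv ℝ nn q w).2⟫ := by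
  rw [mem_Lc hL (Us_sub_Nz h), ← nn_eq h]
  refine exists_congr fun p => and_congr_right fun i => forall_congr' fun w => ?_
  rw [(nn_nr h).pair ⟨(hL _ i).2.2.1, (hL _ i).2.2.2⟩]

theorem mem_Lc1 {L : Set (Amb 11)} (hL : ∀ a ∈ L, InCotangent 11 a) {q : V} (h1 : ‖q.1‖ = 1)
    (h2 : ‖q.2‖ = 1) (P : Vd) :
    (q, P) ∈ Lc L ↔ ∃ p, (q, p) ∈ L ∧ ∀ w : V, P w = ⟪p.1, w.1⟫ + ⟪p.2, w.2⟫ := by
  rw [mem_Lc hL (Us_sub_Nz (unit_mem_Us h1 h2))]
  simp only [h1, h2, inv_one, one_smul, one_mul]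

theorem nnc : NNC := by
  intro E _ _ _ G D U' L hL hU h
  refine h.cone nn_smooth (fun q a => hU _ (nn_norm a).1 (nn_norm a).2) rad ?_
    (fun q a => (nn_nr a).inj) (fun q a P i => ?_) fun q a P i => ?_
  · rintro ⟨q, P⟩ ⟨a, i, s, t, hs, ht, e, k⟩ j
    obtain rfl : q = _ := e
    have c := (hL a i).2.2.1
    have d := (hL a i).2.2.2
    rw [real_inner_comm] at c d
    rw [k]
    cases j <;> simp [rad, inner_smul_right, c, d]
  · obtain ⟨p, k, l⟩ := (mem_Lc1 hL (nn_norm a).1 (nn_norm a).2 P).1 i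
    exact (mem_Lc' hL a _).2 ⟨p, k, fun w => l _⟩
  · obtain ⟨p, k, l⟩ := (mem_Lc' hL a P).1 i
    exact ⟨(innerSL ℝ p.1).comp (fst ℝ Y X) + (innerSL ℝ p.2).comp (snd ℝ Y X),
      (mem_Lc1 hL (nn_norm a).1 (nn_norm a).2 _).2 ⟨p, k, fun w => rfl⟩,
      ContinuousLinearMap.ext fun w => (l w).symm⟩

section
variable {W E E' : Type*} [NormedAddCommGroup W] [NormedSpace ℝ W] [NormedAddCommGroup E]
  [NormedSpace ℝ E] [NormedAddCommGroup E'] [NormedSpace ℝ E']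

theorem fd_clm {G : E → ℝ} (hG : ContDiff ℝ ∞ G) (A : E' →L[ℝ] E) (x k : E') :
    fderiv ℝ (fun x => G (A x)) x k = fderiv ℝ G (A x) (A k) :=
  ContinuousLinearMap.ext_iff.1
    ((hG.differentiable (by simp) (A x)).hasFDerivAt.comp x A.hasFDerivAt).fderiv k

theorem fd2_clm {G : E → ℝ} (hG : ContDiff ℝ ∞ G) (A : E' →L[ℝ] E) (x h k : E') :
    fderiv ℝ (fderiv ℝ fun x => G (A x)) x h k = fderiv ℝ (fderiv ℝ G) (A x) (A h) (A k) :=
  ContinuousLinearMap.ext_iff.1 ((has_d2a (hG.comp A.contDiff) x k).unique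
    (((has_d2a hG (A x) (A k)).comp x A.hasFDerivAt).congr_of_eventuallyEq
      (Eventually.of_forall fun y => fd_clm hG A y k))) h

/-- a linear change of the fibre variable -/
theorem Gen.equiv {G : W × E → ℝ} {D : Set (W × E)} {U : Set W} {L : Set (W × (W →L[ℝ] ℝ))}
    (h : Gen G D U L) (e : E' ≃L[ℝ] E) :
    Gen (fun x : W × E' => G (x.1, e x.2)) {x | (x.1, e x.2) ∈ D} U L := by
  let A : W × E' →L[ℝ] W × E := (ContinuousLinearMap.id ℝ W).prodMap e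
  have d1 : ∀ x k : W × E', fderiv ℝ (fun x : W × E' => G (x.1, e x.2)) x k =
      fderiv ℝ G (x.1, e x.2) (k.1, e k.2) := fd_clm h.sm A
  have d2 : ∀ x i k : W × E', fderiv ℝ (fderiv ℝ fun x : W × E' => G (x.1, e x.2)) x i k =
      fderiv ℝ (fderiv ℝ G) (x.1, e x.2) (i.1, e i.2) (k.1, e k.2) := fd2_clm h.sm A
  have cr : ∀ x : W × E', Cr (fun x : W × E' => G (x.1, e x.2)) x ↔ Cr G (x.1, e x.2) := fun x => by
    simp only [Cr, d1]
    exact ⟨fun a ζ => by simpa using a (e.symm ζ), fun a ζ => a _⟩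
  have q : ∀ x : W × E', dq (fun x : W × E' => G (x.1, e x.2)) x = dq G (x.1, e x.2) := fun x =>
    ContinuousLinearMap.ext fun w => by rw [dq_apply, d1, dq_apply, map_zero]
  refine ⟨h.sm.comp A.contDiff, h.op.preimage A.continuous, fun x a b c => ?_, fun z a b => ?_,
    fun p a ξ ξ' b b' c c' i => ?_, fun x a b c ζ i => ?_⟩
  · rw [q]; exact h.mem _ a b ((cr x).1 c)
  · obtain ⟨ξ, i, j, k⟩ := h.ex z a b
    exact ⟨e.symm ξ, by simpa using i, (cr _).2 (by simpa using j), (q _).trans (by simpa using k)⟩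
  · rw [q, q] at i
    exact e.injective (h.un p a _ _ b b' ((cr _).1 c) ((cr _).1 c') i)
  · refine e.map_eq_zero_iff.1 (h.sub _ a b ((cr x).1 c) _ (ContinuousLinearMap.ext fun k => ?_))
    simpa [d2] using ContinuousLinearMap.ext_iff.1 i (k.1, e.symm k.2)

/-- only the part of the domain over `U` matters -/
theorem Gen.congr_dom {G : W × E → ℝ} {D D' : Set (W × E)} {U : Set W}
    {L : Set (W × (W →L[ℝ] ℝ))} (h : Gen G D U L) (ho : IsOpen D')
    (e : ∀ x : W × E, x.1 ∈ U → (x ∈ D' ↔ x ∈ D)) : Gen G D' U L :=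
  ⟨h.sm, ho, fun x a b => h.mem x ((e x b).1 a) b, fun z a b =>
    (h.ex z a b).imp fun ξ i => ⟨(e (z.1, ξ) b).2 i.1, i.2⟩,
    fun q a ξ ξ' b b' => h.un q a ξ ξ' ((e (q, ξ) a).1 b) ((e (q, ξ') a).1 b'),
    fun x a b => h.sub x ((e x b).1 a) b⟩
end

end Crest.Agent.N218.C
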