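import Crest.Agent.N218.C.Cone
import Crest.Agent.N218.C.Stp
import Crest.Agent.N218.C.Next
import Crest.Agent.N218.C.Toe
import Crest.Agent.N218.C.Fs

/-! Row 218: block (C). -/

namespace Crest.Agent.N218.C

theorem main2 : CM2 := cm2 cone near base next toe2

theorem main : CM := main2.cm

end Crest.Agent.N218.C
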