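import Crest.Agent.N218.C.Defs
import Crest.Agent.N218.C.Lya

/-! Row 218, block (C) (helper17): periodic orbits are fixed points. -/

set_option autoImplicit false
open Set Metric

namespace Crest.Agent.N218.C

/-- a uniform margin between the levels `w / 2` and `w` -/
theorem Ret.margin {ρ : X × Y → ℝ} {r : X × Y → Y} {w R : ℝ} (h : Ret ρ r w R) :
    ∃ δ > 0, ∀ x y x' y', ‖x‖ = 1 → ρ (x, y) ≤ w / 2 → ‖x' - x‖ < δ → ‖y' - y‖ < δ →
      ρ (x', y') < w := by
  have w0 := h.w0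
  have k : IsCompact ((sphere (0 : X) 1 ×ˢ closedBall (0 : Y) R) ∩ {p | ρ p ≤ w / 2}) :=
    ((isCompact_sphere _ _).prod (isCompact_closedBall _ _)).inter_right
      (isClosed_le h.ρc continuous_const)
  obtain ⟨δ, d0, hd⟩ := k.exists_thickening_subset_open (t := {p | ρ p < w})
    (isOpen_lt h.ρc continuous_const) fun p hp => lt_of_le_of_lt (b := w / 2) hp.2 (by linarith)
  refine ⟨δ, d0, fun x y x' y' hx hy a b => hd (mem_thickening_iff.2 ⟨(x, y), ⟨⟨by simpa, ?_⟩, hy⟩, ?_⟩)⟩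
  · simpa using (h.bl x y hx (by linarith)).le
  · rw [Prod.dist_eq, dist_eq_norm, dist_eq_norm]; exact max_lt a b

theorem per : PER := by
  intro ρ r w R h C
  obtain ⟨d, d0, hd⟩ := h.margin
  have w0 := h.w0
  have c0 : 0 < |C| + 1 := by positivity
  have c1 : C < |C| + 1 := by linarith [le_abs_self C]
  set δ := d / (2 * (|C| + 1)) with hδ
  have δ0 : 0 < δ := by positivity
  have δ1 : (|C| + 1) * δ < d := by rw [hδ]; field_simp; linarith
  refine ⟨min (1 / (|C| + 1)) (δ ^ 2 / (2 * (|C| + 1))), by positivity, ?_⟩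
  intro ε e0 e1 Z _ _ _ ξ g gr o I _ σ p hp i
  have e2 : ε * (|C| + 1) ≤ 1 := (le_div_iff₀ c0).1 (e1.trans (min_le_left _ _))
  have e3 : ε * (2 * (|C| + 1)) ≤ δ ^ 2 :=
    (le_div_iff₀ (by positivity)).1 (e1.trans (min_le_right _ _))
  have hD : ∀ z : Fb Z, ρ (ξ (Rt r ξ z).snd, (Rt r ξ z).fst) ≤ w / 2 := fun z => h.half _ _ (o.un _)
  have dec : ∀ z : Fb Z, ρ (ξ z.snd, z.fst) ≤ w / 2 → 0 < ρ (ξ z.snd, z.fst) →
      ρ (ξ (Rt r ξ z).snd, (Rt r ξ z).fst) < ρ (ξ z.snd, z.fst) := fun z a b =>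
    h.dec (ξ z.snd) z.fst (o.un _) b (by linarith)
  obtain ⟨k1, k2, k3⟩ := lyap σ (g := g) (ρ := fun z : Fb Z => ρ (ξ z.snd, z.fst))
    (E := fun z => z - ε • gr z) (R := Rt r ξ) (D := {z | ρ (ξ z.snd, z.fst) ≤ w / 2})
    (κ := 1 / (2 * ε)) (δ := δ) (o := C) (by positivity) δ0.le
    (by rw [one_div, inv_mul_eq_div, lt_div_iff₀ (by positivity)]; nlinarith) hD
    (fun z _ => desc_grad o.gd o.lg e0 (by nlinarith) z) (fun z hz n => by
      refine o.mono _ (hd _ _ _ _ (o.un _) hz ((o.lx _ _).trans_lt ?_) ?_).le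
      · have := (WithLp.norm_snd_le (p := 2) (x := z - ε • gr z - z)).trans n
        exact (mul_le_mul c1.le this (norm_nonneg _) c0.le).trans_lt δ1
      · have := (WithLp.norm_fst_le (p := 2) (x := z - ε • gr z - z)).trans n
        exact this.trans_lt (by nlinarith [abs_nonneg C]))
    (fun z _ => o.big _) (fun z hz _ => (le_or_gt (ρ (ξ z.snd, z.fst)) 0).imp (fun c => by
      rw [Rt, h.fix _ _ (o.un _) c]; rfl) (dec z hz)) hp i
  refine ⟨k3, (smul_eq_zero.1 (sub_eq_self.1 k1)).resolve_left e0.ne', not_lt.1 fun c => ?_⟩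
  have := dec (p i) (k2 ▸ hD (p i)) c
  rw [k2] at this
  exact lt_irrefl _ this

end Crest.Agent.N218.C
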