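import Crest.Agent.R216.ParamInt

/-! # N218/C/Prim (helper48): primitives of a smooth family of exact forms are jointly smooth;
the projection to a sphere -/

set_option autoImplicit false

open Set Filter Topology Metric
open scoped ContDiff Manifold

noncomputable section

namespace Crest.Agent.N218.C

section prim
variable {S V : Type*} [NormedAddCommGroup S] [NormedSpace ℝ S] [NormedAddCommGroup V]
  [NormedSpace ℝ V] [FiniteDimensional ℝ V] {N : Set V} {α : S × V → V →L[ℝ] ℝ} {H : S → V → ℝ}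

theorem prim_loc (hN : IsOpen N) (hα : ContDiffOn ℝ ∞ α (univ ×ˢ N))
    (hH : ∀ s, ∀ l ∈ N, HasFDerivAt (H s) (α (s, l)) l) {l₁ : V} (h1 : l₁ ∈ N) :
    ∃ r > 0, ContDiffOn ℝ ∞ (fun p : S × V => H p.1 p.2 - H p.1 l₁) (univ ×ˢ ball l₁ r) := by
  obtain ⟨r, r0, hr⟩ := Metric.isOpen_iff.1 hN l₁ h1
  let φ : ContDiffBump l₁ := ⟨r / 4, r / 2, by positivity, by linarith⟩
  set c : V → V := fun l => l₁ + φ l • (l - l₁) with hc
  have c1 : ∀ l, c l ∈ N := fun l => hr (by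
    rw [mem_ball_iff_norm, hc]
    simp only [add_sub_cancel_left, norm_smul, Real.norm_eq_abs, abs_of_nonneg φ.nonneg]
    by_cases h : φ l = 0
    · simpa [h] using r0
    · have h2 : l ∈ ball l₁ (r / 2) := φ.support_eq ▸ (h : l ∈ Function.support φ)
      rw [mem_ball_iff_norm] at h2
      nlinarith [φ.le_one (x := l), norm_nonneg (l - l₁), φ.nonneg (x := l)])
  have c2 : ∀ l ∈ ball l₁ (r / 4), c l = l := fun l hl => by
    simp [hc, φ.one_of_mem_closedBall (ball_subset_closedBall hl)]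
  have sc : ContDiff ℝ ∞ c := contDiff_const.add (φ.contDiff.smul (contDiff_id.sub contDiff_const))
  have sa : ContDiff ℝ ∞ fun p : S × V => α (p.1, c p.2) :=
    hα.comp_contDiff (contDiff_fst.prodMk (sc.comp contDiff_snd)) fun p => ⟨trivial, c1 _⟩
  have si := Crest.Agent.R216.contDiff_param_integral (n := ⊤) (h := fun (p : S × V) (t : ℝ) =>
    α (p.1, c (l₁ + t • (p.2 - l₁))) (p.2 - l₁)) 0 1
    ((sa.comp (f := fun q : (S × V) × ℝ => (q.1.1, l₁ + q.2 • (q.1.2 - l₁))) (by fun_prop)).clm_apply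
      (g := fun q : (S × V) × ℝ => q.1.2 - l₁) (by fun_prop))
  refine ⟨r / 4, by positivity, si.contDiffOn.congr fun p hp => ?_⟩
  have m : ∀ t ∈ uIcc (0 : ℝ) 1, l₁ + t • (p.2 - l₁) ∈ ball l₁ (r / 4) := fun t ht => by
    rw [uIcc_of_le zero_le_one] at ht
    have h2 := mem_ball_iff_norm.1 hp.2
    rw [mem_ball_iff_norm, add_sub_cancel_left, norm_smul, Real.norm_eq_abs, abs_of_nonneg ht.1]
    nlinarith [ht.1, ht.2, norm_nonneg (p.2 - l₁)]
  rw [intervalIntegral.integral_eq_sub_of_hasDerivAt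
    (f := fun t => H p.1 (l₁ + t • (p.2 - l₁)))
    (f' := fun t => α (p.1, c (l₁ + t • (p.2 - l₁))) (p.2 - l₁)) (fun t ht => by
      rw [c2 _ (m t ht)]
      have := (hH p.1 _ (c2 _ (m t ht) ▸ c1 _)).comp_hasDerivAt t
        (((hasDerivAt_id t).smul_const (p.2 - l₁)).const_add l₁)
      simpa [Function.comp_def] using this) (Continuous.intervalIntegrable ((sa.continuous.comp
        (f := fun t : ℝ => (p.1, l₁ + t • (p.2 - l₁))) (by fun_prop)).clm_apply continuous_const) _ _)]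
  simp

/-- **primitives are jointly smooth** -/
theorem prim (hN : IsOpen N) (hc : IsPreconnected N) (hα : ContDiffOn ℝ ∞ α (univ ×ˢ N))
    (hH : ∀ s, ∀ l ∈ N, HasFDerivAt (H s) (α (s, l)) l) {l₀ : V} (h0 : l₀ ∈ N) :
    ContDiffOn ℝ ∞ (fun p : S × V => H p.1 p.2 - H p.1 l₀) (univ ×ˢ N) := by
  have k : ∀ l ∈ N, ContDiff ℝ ∞ fun s => H s l - H s l₀ := fun l hl =>
    hc.induction₂ (fun a b => ContDiff ℝ ∞ fun s => H s b - H s a) (fun x hx => by
      obtain ⟨r, r0, h⟩ := prim_loc hN hα hH hx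
      filter_upwards [mem_nhdsWithin_of_mem_nhds (ball_mem_nhds x r0)] with y hy
      exact h.comp_contDiff (f := fun s => (s, y)) (by fun_prop) fun s => ⟨trivial, hy⟩)
      (fun x y z _ _ _ a b => by simpa using b.add a)
      (fun x y _ _ a => by simpa using a.neg) h0 hl
  rintro ⟨s, l⟩ ⟨-, hl⟩
  obtain ⟨r, r0, h⟩ := prim_loc hN hα hH hl
  have := (h.contDiffAt ((isOpen_univ.prod isOpen_ball).mem_nhds
    (mk_mem_prod (mem_univ s) (mem_ball_self r0)))).add
    (((k l hl).comp contDiff_fst).contDiffAt (x := (s, l)))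
  simpa using this.contDiffWithinAt

end prim

section sph
variable {k : ℕ}

/-- the projection to the unit sphere -/
def pr (x : EuclideanSpace ℝ (Fin (k + 1))) : sphere (0 : EuclideanSpace ℝ (Fin (k + 1))) 1 :=
  open Classical in
  if h : x = 0 then ⟨EuclideanSpace.single 0 1, by simp⟩
  else ⟨‖x‖⁻¹ • x, by simp [norm_smul, h]⟩

theorem pr_val {x : EuclideanSpace ℝ (Fin (k + 1))} (h : x ≠ 0) : (pr x).1 = ‖x‖⁻¹ • x := by
  simp [pr, h]

theorem pr_coe (x : sphere (0 : EuclideanSpace ℝ (Fin (k + 1))) 1) : pr x.1 = x :=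
  Subtype.ext (by rw [pr_val (ne_zero_of_mem_unit_sphere x)]; simp)

theorem pr_smul (x : sphere (0 : EuclideanSpace ℝ (Fin (k + 1))) 1) {r : ℝ} (h : 0 < r) :
    pr (r • x.1) = x :=
  Subtype.ext (by
    rw [pr_val (smul_ne_zero h.ne' (ne_zero_of_mem_unit_sphere x))]
    simp [norm_smul, abs_of_pos h, smul_smul, h.ne'])

theorem smul_pr (x : EuclideanSpace ℝ (Fin (k + 1))) : ‖x‖ • (pr x).1 = x := by
  by_cases h : x = 0
  · simp [h]
  · rw [pr_val h, smul_smul, mul_inv_cancel₀ (norm_ne_zero_iff.2 h), one_smul]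

theorem contDiffAt_nz {E : Type*} [NormedAddCommGroup E] [InnerProductSpace ℝ E] {x : E}
    (h : x ≠ 0) : ContDiffAt ℝ ∞ (fun y : E => ‖y‖⁻¹ • y) x :=
  ((contDiffAt_norm ℝ h).inv (norm_ne_zero_iff.2 h)).smul contDiffAt_id

theorem pr_smooth {x : EuclideanSpace ℝ (Fin (k + 1))} (h : x ≠ 0) :
    ContMDiffAt 𝓘(ℝ, EuclideanSpace ℝ (Fin (k + 1))) (𝓡 k) ∞ pr x := by
  have : Fact (Module.finrank ℝ (EuclideanSpace ℝ (Fin (k + 1))) = k + 1) := ⟨by simp⟩
  let U : TopologicalSpace.Opens (EuclideanSpace ℝ (Fin (k + 1))) := ⟨{0}ᶜ, isOpen_compl_singleton⟩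
  have h1 : ContMDiff 𝓘(ℝ, EuclideanSpace ℝ (Fin (k + 1))) 𝓘(ℝ, EuclideanSpace ℝ (Fin (k + 1))) ∞
      fun y : U => ‖y.1‖⁻¹ • y.1 := fun y =>
    (contMDiffAt_subtype_iff (f := fun y : EuclideanSpace ℝ (Fin (k + 1)) => ‖y‖⁻¹ • y)).2
      (contDiffAt_nz y.2).contMDiffAt
  have h2 := h1.codRestrict_sphere (n := k) fun y => by
    have : y.1 ≠ 0 := y.2
    simp [norm_smul, this]
  refine (contMDiffAt_subtype_iff (U := U) (x := ⟨x, h⟩)).1 ?_
  exact (h2 ⟨x, h⟩).congr_of_eventuallyEq (.of_forall fun y => Subtype.ext (pr_val y.2))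

end sph

end Crest.Agent.N218.C

end
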